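import Vale.Agent.P218WT.Push
import Mathlib.Analysis.ODE.Gronwall

/-! Integrals along the curves which follow a sheet above a horizontal line. -/

open MeasureTheory Set Filter Topology Metric
open scoped ENNReal NNReal RealInnerProductSpace

namespace Vale.Agent.P218WT

open Vale.Agent.P218UF
open Vale.Agent.P218.H63 (hessSq)

lemma flow_dist {X : E3 → E3} (hb : ∀ x, ‖X x‖ ≤ 3) {γ : ℝ → E3}
    (hd : ∀ t, HasDerivAt γ (X (γ t)) t) (s t : ℝ) : ‖γ s - γ t‖ ≤ 3 * |s - t| :=
  convex_univ.norm_image_sub_le_of_norm_hasDerivWithin_le (fun t _ => (hd t).hasDerivWithinAt)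
    (fun _ _ => hb _) (mem_univ t) (mem_univ s)

lemma flow_est {X : E3 → E3} (hX : LocallyLipschitz X) (hb : ∀ x, ‖X x‖ ≤ 3) {Φ : E3 → ℝ → E3}
    (h0 : ∀ y, Φ y 0 = y) (hd : ∀ y t, HasDerivAt (Φ y) (X (Φ y t)) t) (y₀ : E3) (T : ℝ) :
    ∃ L : ℝ, ∀ y ∈ closedBall y₀ 1, ∀ τ ∈ Icc 0 T, dist (Φ y τ) (Φ y₀ τ) ≤ dist y y₀ * L := by
  obtain ⟨K, hK⟩ := hX.locallyLipschitzOn.exists_lipschitzOnWith_of_compact
    (isCompact_closedBall y₀ (1 + 3 * T))
  have hm : ∀ y ∈ closedBall y₀ 1, ∀ t ∈ Ico 0 T, Φ y t ∈ closedBall y₀ (1 + 3 * T) :=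
    fun y hy t ht => by
      have h1 := flow_dist hb (hd y) t 0
      rw [h0, sub_zero, abs_of_nonneg ht.1, ← dist_eq_norm] at h1
      have := dist_triangle (Φ y t) y y₀
      rw [mem_closedBall] at hy ⊢
      linarith [ht.2]
  have hc : ∀ y, Continuous (Φ y) := fun y =>
    continuous_iff_continuousAt.2 fun t => (hd y t).continuousAt
  refine ⟨Real.exp (K * T), fun y hy τ hτ => ?_⟩
  refine (dist_le_of_trajectories_ODE_of_mem (v := fun _ => X) (fun _ _ => hK) (hc y).continuousOn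
    (fun t _ => (hd y t).hasDerivWithinAt) (hm y hy) (hc y₀).continuousOn
    (fun t _ => (hd y₀ t).hasDerivWithinAt) (hm y₀ (mem_closedBall_self zero_le_one))
    (δ := dist y y₀) (by rw [h0, h0]) τ hτ).trans ?_
  gcongr
  linarith [hτ.2]

lemma flow_cont {X : E3 → E3} (hX : LocallyLipschitz X) (hb : ∀ x, ‖X x‖ ≤ 3) {Φ : E3 → ℝ → E3}
    (h0 : ∀ y, Φ y 0 = y) (hd : ∀ y t, HasDerivAt (Φ y) (X (Φ y t)) t) :
    Continuous fun q : E3 × ℝ => Φ q.1 q.2 := by
  refine continuous_iff_continuousAt.2 fun q => ?_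
  obtain ⟨L₁, h1⟩ := flow_est hX hb h0 hd q.1 (|q.2| + 1)
  obtain ⟨L₂, h2⟩ := flow_est (X := fun x => -X x) (Φ := fun y t => Φ y (-t)) hX.neg
    (fun x => by simpa using hb x) (fun y => by simpa using h0 y)
    (fun y t => ((hd y (-t)).scomp t (hasDerivAt_neg t)).congr_deriv (by simp)) q.1 (|q.2| + 1)
  rw [ContinuousAt, tendsto_iff_dist_tendsto_zero]
  refine squeeze_zero' (Eventually.of_forall fun _ => dist_nonneg)
    (g := fun p : E3 × ℝ => dist p.1 q.1 * max L₁ L₂ + 3 * |p.2 - q.2|) ?_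
    (Continuous.tendsto' (by fun_prop) _ _ (by simp))
  filter_upwards [continuousAt_fst.eventually (closedBall_mem_nhds q.1 one_pos),
    continuousAt_snd.eventually (closedBall_mem_nhds q.2 one_pos)] with p a b
  have h3 := flow_dist hb (hd q.1) p.2 q.2
  rw [← dist_eq_norm] at h3
  have h4 : |p.2| ≤ |q.2| + 1 := by
    have := abs_sub_abs_le_abs_sub p.2 q.2
    rw [Real.dist_eq] at b
    linarith
  refine (dist_triangle _ (Φ q.1 p.2) _).trans (add_le_add ?_ h3)
  rcases le_total 0 p.2 with h | h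
  · exact (h1 _ a _ ⟨h, (le_abs_self _).trans h4⟩).trans (by gcongr; exact le_max_left _ _)
  · have := h2 _ a (-p.2) ⟨by linarith, (neg_le_abs _).trans h4⟩
    simp only [neg_neg] at this
    exact this.trans (by gcongr; exact le_max_right _ _)

variable (S : Dat) (F : Frame)

/-- the curve through `y`, starting at the parameter zero -/
noncomputable def cz (y : E3) (s : ℝ) : E3 := S.cv F y (⟪y, F.e⟫ + s)

lemma cz_zero (y : E3) : cz S F y 0 = y := by rw [cz, add_zero, S.cv_self]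

lemma cz_deriv (y : E3) (s : ℝ) : HasDerivAt (cz S F y) (S.vf F (cz S F y s)) s :=
  (S.cv_deriv F y _).comp_const_add _ s

lemma cz_cont : Continuous fun q : E3 × ℝ => cz S F q.1 q.2 :=
  flow_cont (S.vf_lip F) (S.norm_vf F) (cz_zero S F) (cz_deriv S F)

lemma cz_dist (y : E3) (s : ℝ) : ‖cz S F y s - y‖ ≤ 3 * |s| := by
  simpa [cz_zero] using flow_dist (S.norm_vf F) (cz_deriv S F y) s 0

/-- the part of the surface which is transverse to the vertical direction -/
def vv : Set E3 := {x | S.w x = 0 ∧ 1 / 2 ≤ |S.u F x|}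

lemma meas_vv : MeasurableSet (vv S F) :=
  S.mz.inter (isClosed_le continuous_const (S.cu F).continuous.abs).measurableSet

/-- the integral of `D` along the curve through `y` -/
noncomputable def jop (r : ℝ) (D : E3 → ℝ≥0∞) : E3 → ℝ≥0∞ :=
  (vv S F).indicator fun y => ∫⁻ s in Icc (-r) r, (vv S F).indicator D (cz S F y s)

variable {D : E3 → ℝ≥0∞}

lemma meas_jop (r : ℝ) (hD : Measurable D) : Measurable (jop S F r D) :=
  (((hD.indicator (meas_vv S F)).comp (cz_cont S F).measurable).lintegral_prod_right').indicator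
    (meas_vv S F)

lemma fs_jop (r : ℝ) (hD : Measurable D) (ξ : ℝ × ℝ) : fs F S.w (jop S F r D) ξ
    ≤ ∫⁻ s in Icc (-r) r, fs F S.w ((vv S F).indicator D) (ξ + (s, 0)) := by
  rw [fs, ENNReal.tsum_eq_iSup_sum]
  refine iSup_le fun T => ?_
  refine (Finset.sum_le_sum (g := fun t => ∫⁻ s in Icc (-r) r, (vv S F).indicator D
    (cz S F (F.pt ξ t) s)) fun t _ => (indicator_le_self _ (jop S F r D) _).trans
      (indicator_le_self (vv S F) _ _)).trans ?_
  rw [← lintegral_finsetSum (f := fun t s => (vv S F).indicator D (cz S F (F.pt ξ t) s)) _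
    fun t _ => (hD.indicator (meas_vv S F)).comp
      ((cz_cont S F).comp (Continuous.prodMk_right (F.pt ξ t))).measurable]
  refine lintegral_mono fun s => (ENNReal.sum_le_tsum T).trans ?_
  have hi : Function.Injective fun t => S.ht F (F.pt ξ t) (ξ.1 + s) := fun t t' h => by
    have := S.cv_inj F (y := F.pt ξ t) (y' := F.pt ξ t') (s := ξ.1 + s)
      (by rw [S.cv_eq, S.cv_eq]; simp only [F.pt_f]; rw [show S.ht F _ _ = _ from h]) (by simp)
    simpa using congrArg (fun x => ⟪x, F.n⟫) this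
  refine le_trans (ENNReal.tsum_le_tsum fun t => ?_) (ENNReal.tsum_comp_le_tsum_of_injective hi
    fun t => {x | S.w x = 0}.indicator ((vv S F).indicator D) (F.pt (ξ + (s, 0)) t))
  rw [cz, F.pt_e, S.cv_eq, F.pt_f, indicator_indicator,
    inter_eq_right.2 (show vv S F ⊆ {x | S.w x = 0} from fun _ h => h.1),
    show ξ + (s, 0) = (ξ.1 + s, ξ.2) from Prod.ext rfl (add_zero _)]

lemma int_jop (r : ℝ) (hD : Measurable D) :
    ∫⁻ y, jop S F r D y ∂(ar S.w) ≤ ENNReal.ofReal (4 * r) * ∫⁻ y, D y ∂(ar S.w) := by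
  have hu : ∀ {g : E3 → ℝ≥0∞} x, (vv S F).indicator g x ≠ 0 → 1 / 2 ≤ |S.u F x| := fun x h =>
    (mem_of_indicator_ne_zero h).2
  have hn : ∀ (g : E3 → ℝ≥0∞) x, S.w x = 0 → (vv S F).indicator g x ≠ 0 →
      ⟪gradient S.w x, F.n⟫ ≠ 0 := fun g x _ h h0 => by
    have := hu x h
    rw [Dat.u, h0] at this; norm_num at this
  obtain ⟨-, e1⟩ := lintegral_fs F S.hw1 S.h1 (meas_jop S F r hD) (hn _)
  obtain ⟨m2, e2⟩ := lintegral_fs F S.hw1 S.h1 (hD.indicator (meas_vv S F)) (hn _)
  have h1 : ∫⁻ y, jop S F r D y ∂(ar S.w) ≤ 2 * ∫⁻ ξ, fs F S.w (jop S F r D) ξ := by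
    rw [e1, ← lintegral_const_mul' _ _ (by norm_num)]
    refine lintegral_mono fun x => ?_
    by_cases h : jop S F r D x = 0
    · simp [h]
    rw [mul_left_comm]
    refine le_mul_of_one_le_right' (le_trans (le_of_eq ?_)
      (mul_le_mul_right (ENNReal.ofReal_le_ofReal (hu x h)) _))
    rw [one_div, ENNReal.ofReal_inv_of_pos two_pos, ENNReal.ofReal_ofNat,
      ENNReal.mul_inv_cancel (by norm_num) (by norm_num)]
  have h2 : ∫⁻ ξ, fs F S.w ((vv S F).indicator D) ξ ≤ ∫⁻ y, D y ∂(ar S.w) := by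
    rw [e2]
    refine setLIntegral_mono' S.mz fun x hx => ?_
    exact (mul_le_mul' (indicator_le_self _ _ x) (ENNReal.ofReal_le_one.2 (S.abs_u_le F hx))).trans_eq
      (mul_one _)
  refine h1.trans ((mul_le_mul_right (lintegral_mono (fs_jop S F r hD)) _).trans ?_)
  rw [lintegral_lintegral_swap (f := fun ξ s => fs F S.w ((vv S F).indicator D) (ξ + (s, 0)))
    (m2.comp (f := fun q : (ℝ × ℝ) × ℝ => q.1 + (q.2, 0)) (by fun_prop)).aemeasurable]
  simp only [lintegral_add_right_eq_self (fs F S.w ((vv S F).indicator D))]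
  rw [setLIntegral_const, Real.volume_Icc, mul_comm _ (ENNReal.ofReal _), ← mul_assoc,
    show 4 * r = 2 * (r - -r) by ring, ENNReal.ofReal_mul two_pos.le, ENNReal.ofReal_ofNat]
  exact mul_le_mul_right h2 _

/-- following a sheet as long as the curvature energy along the curve is small -/
theorem go {r η : ℝ} {y : E3} {B : Set E3} (hBm : MeasurableSet B) (hr : 0 < r) (hη : 0 < η)
    (hB : closedBall y (3 * r) ⊆ B) (hy : S.w y = 0) (hN : 1 / 2 + η < |S.u F y|)
    (hJ : jop S F r (B.indicator fun x => ENNReal.ofReal (hessSq S.w x)) y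
      ≤ ENNReal.ofReal (η ^ 2 / (9 * r))) :
    ∀ s ∈ Icc (-r) r, S.w (cz S F y s) = 0 ∧ ‖gradient S.w (cz S F y s) - gradient S.w y‖ ≤ η := by
  set G : Set E3 := {x | 1 / 2 < |S.u F x|} ∩ {x | |S.a F x| < 2 * |S.u F x|} with hG
  have hGo : IsOpen G := (isOpen_lt continuous_const (S.cu F).continuous.abs).inter
    (isOpen_lt (S.ca F).continuous.abs (continuous_const.mul (S.cu F).continuous.abs))
  have hV : IsClosed {x | 1 / 2 ≤ |S.u F x|} :=
    isClosed_le continuous_const (S.cu F).continuous.abs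
  have htan : ∀ x ∈ G, fderiv ℝ S.w x (S.vf F x) = 0 := fun x hx => by
    have := S.sl_mul F hx.1.le hx.2.le
    rw [← inner_grad, Dat.vf, inner_add_right, real_inner_smul_right]
    simp only [Dat.u, Dat.a] at this
    linarith
  have hin : ∀ x, S.w x = 0 → ‖gradient S.w x - gradient S.w y‖ ≤ η → x ∈ G := fun x hx h => by
    have a1 := (abs_inner_le (x := gradient S.w x - gradient S.w y) F.hn).trans h
    rw [inner_sub_left] at a1
    have a2 := abs_sub_abs_le_abs_sub (S.u F y) (S.u F x)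
    rw [abs_sub_comm] at a2
    have a3 : |S.u F x - S.u F y| ≤ η := a1
    have a4 := S.abs_a_le F hx
    exact ⟨show 1 / 2 < |S.u F x| by linarith, show |S.a F x| < 2 * |S.u F x| by linarith⟩
  set D₀ := (vv S F).indicator (B.indicator fun x => ENNReal.ofReal (hessSq S.w x))
  have m0 : Measurable D₀ := (((continuous_hessSq' S.hw).measurable.ennreal_ofReal).indicator
    hBm).indicator (meas_vv S F)
  rw [jop, indicator_of_mem (show y ∈ vv S F from ⟨hy, by linarith⟩)] at hJ
  set D₁ : E3 → ℝ≥0∞ := fun x => ENNReal.ofReal (η / (2 * r)) + ENNReal.ofReal (9 * r / (2 * η)) * D₀ x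
  have hD : ∀ t ∈ Icc (-r) r, S.w (cz S F y t) = 0 → cz S F y t ∈ {x | 1 / 2 ≤ |S.u F x|} →
      ENNReal.ofReal (3 * ‖fderiv ℝ (gradient S.w) (cz S F y t)‖) ≤ D₁ (cz S F y t) :=
    fun t ht h0 hV' => by
      have b1 : cz S F y t ∈ B := hB (mem_closedBall_iff_norm.2
        ((cz_dist S F y t).trans (by linarith [abs_le.2 ht])))
      have b2 : ‖fderiv ℝ (gradient S.w) (cz S F y t)‖ ^ 2 ≤ hessSq S.w (cz S F y t) :=
        norm_hs_sq_le S.hw _
      simp only [D₁, D₀]
      rw [indicator_of_mem (show cz S F y t ∈ vv S F from ⟨h0, hV'⟩), indicator_of_mem b1,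
        ← ENNReal.ofReal_mul (by positivity), ← ENNReal.ofReal_add (by positivity)
          (mul_nonneg (by positivity) ((sq_nonneg _).trans b2))]
      refine ENNReal.ofReal_le_ofReal (le_trans ?_
        (add_le_add_right (mul_le_mul_of_nonneg_left b2 (by positivity)) _))
      rw [← sub_nonneg, show η / (2 * r) + 9 * r / (2 * η) * ‖fderiv ℝ (gradient S.w) (cz S F y t)‖ ^ 2
        - 3 * ‖fderiv ℝ (gradient S.w) (cz S F y t)‖
        = (η - 3 * r * ‖fderiv ℝ (gradient S.w) (cz S F y t)‖) ^ 2 / (2 * r * η) by field_simp; ring]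
      positivity
  have hI : ∀ γ : ℝ → E3, Continuous γ → ∫⁻ t in Icc 0 r, D₀ (γ t) ≤ ENNReal.ofReal (η ^ 2 / (9 * r)) →
      ∫⁻ t in Icc 0 r, D₁ (γ t) ≤ ENNReal.ofReal η := fun γ hγ h => by
    simp only [D₁]
    rw [lintegral_add_left measurable_const, setLIntegral_const, Real.volume_Icc,
      lintegral_const_mul' _ _ ENNReal.ofReal_ne_top]
    refine (add_le_add_right (mul_le_mul_right h _) _).trans (le_of_eq ?_)
    rw [← ENNReal.ofReal_mul (by positivity), ← ENNReal.ofReal_mul (by positivity),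
      ← ENNReal.ofReal_add (by simp; positivity) (by positivity)]
    congr 1
    field_simp
    ring
  have hc : Continuous (cz S F y) := (cz_cont S F).comp (Continuous.prodMk_right y)
  have hvc : Continuous fun t => S.vf F (cz S F y t) := (S.vf_lip F).continuous.comp hc
  have hGV : G ⊆ {x | 1 / 2 ≤ |S.u F x|} := fun x hx =>
    le_of_lt (show 1 / 2 < |S.u F x| from hx.1)
  intro s hs
  rcases le_total 0 s with h | h
  · have := stay S.hw1 (contDiff_grad S.hw) (cz_deriv S F y) hvc (fun t => S.norm_vf F _) hGo hV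
      (fun t ht => htan _ ht) (a := 0) (b := r) hη.le (by rwa [cz_zero]) hGV (by rwa [cz_zero])
      (fun t ht => hD t ⟨by linarith [ht.1], ht.2⟩) (hI _ hc
        ((lintegral_mono_set (Icc_subset_Icc_left (by linarith))).trans hJ)) s ⟨h, hs.2⟩
    rwa [cz_zero] at this
  · have hd : ∀ t, HasDerivAt (fun t => cz S F y (-t)) (-S.vf F (cz S F y (-t))) t := fun t =>
      ((cz_deriv S F y (-t)).scomp t (hasDerivAt_neg t)).congr_deriv (by simp)
    have := stay S.hw1 (contDiff_grad S.hw) hd (hvc.comp continuous_neg).neg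
      (fun t => by rw [norm_neg]; exact S.norm_vf F _) hGo hV
      (fun t ht => by rw [map_neg, htan _ ht, neg_zero]) (a := 0) (b := r) hη.le
      (by rwa [neg_zero, cz_zero]) hGV (by rwa [neg_zero, cz_zero])
      (fun t ht => hD (-t) ⟨by linarith [ht.2], by linarith [ht.1]⟩)
      (hI _ (hc.comp continuous_neg) (le_trans ?_ hJ)) (-s) ⟨by linarith, by linarith [hs.1]⟩
    · rwa [neg_neg, neg_zero, cz_zero] at this
    · refine (lintegral_mono_set (Icc_subset_Icc_left (show -r ≤ 0 by linarith))).trans ?_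
      rw [← lintegral_indicator measurableSet_Icc, ← lintegral_indicator measurableSet_Icc,
        ← lintegral_neg_eq_self]
      refine le_of_eq (lintegral_congr fun t => ?_)
      by_cases ht : t ∈ Icc (-r) r
      · rw [indicator_of_mem ht, indicator_of_mem (show -t ∈ Icc (-r) r from
          ⟨by linarith [ht.2], by linarith [ht.1]⟩)]
        simp only [neg_neg, D₀]
      · rw [indicator_of_notMem ht, indicator_of_notMem fun h : -t ∈ Icc (-r) r =>
          ht ⟨by linarith [h.2], by linarith [h.1]⟩]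

end Vale.Agent.P218WT
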