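import Vale.Agent.P218WT.Tilt
import Vale.Agent.P218WC.Mono
import Vale.Agent.P218UO.Foot

/-! The error terms of the two-point barrier at small scales. -/

open MeasureTheory Set Filter Topology Metric
open scoped ENNReal NNReal RealInnerProductSpace

namespace Vale.Agent.P218WT

open Vale.Agent.P218UA Vale.Agent.P218WA Vale.Agent.P218WC
open Vale.Agent.P218.H63 (lap hessSq)

variable {w : ℝ → E3 → ℝ} {I Z : Set ℝ} {A c θ s a : ℝ}

lemma adm_hit (h : IsW0 w I Z A) {t S : ℝ} (ht : t ∈ I) (h0 : 0 < θ) (h1 : θ ≤ c / 10) (hc : c ≤ 1)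
    {x z : E3} (ha : Adm (w t) θ c x z) (hS : ‖z - x‖ ≤ S) :
    Hit (w t) (gradient (w t)) c S z x := by
  obtain ⟨hx, hz, hne, hr, hc', e⟩ := ha
  obtain ⟨a, b, m, -, hf⟩ := h.loc ⟨ht, h.notMem hx⟩
  obtain ⟨σ, e⟩ : ∃ σ : ℝ, z - x = σ • gradient (w t) z := ⟨_, e⟩
  have hd : 0 < ‖z - x‖ := norm_sub_pos_iff.2 hne
  have hσ : ‖z - x‖ = |σ| := by
    rw [e, norm_smul, (h.eik t ht z hz).self_of_nhds, mul_one, Real.norm_eq_abs]
  refine ⟨hz, hx, le_of_mul_le_mul_right (hc'.trans_eq ?_) hd, -σ, fun h => ?_,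
    by rwa [abs_neg, ← hσ], by rw [neg_smul, ← e]; abel, fun τ hτ h2 => ?_⟩
  · rw [hσ, e, real_inner_smul_left, abs_mul, mul_comm]
  · rw [hσ, neg_eq_zero.1 h, abs_zero] at hd
    exact hd.false
  have e2 : z + (τ * -σ) • gradient (w t) z - x = (1 - τ) • (z - x) := by
    rw [add_sub_right_comm, e]; module
  have h3 : 0 < 1 - τ := sub_pos.2 hτ.2
  refine P218UO.not_reg hf.toIsFlow m hx h2 h0.le (by linarith) ?_ ?_ hr
  · rw [e2, norm_smul, Real.norm_of_nonneg h3.le]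
    nlinarith [hτ.1]
  · rw [e2, norm_smul, Real.norm_of_nonneg h3.le, real_inner_smul_left, abs_mul, abs_of_pos h3]
    nlinarith [mul_pos h3 (mul_pos h0 hd), mul_le_mul_of_nonneg_left hc' h3.le,
      mul_le_mul_of_nonneg_left h1 (mul_pos h3 hd).le]

/-- the excess of the tilt over `a` at the scale `s` -/
noncomputable def tb (w : ℝ → E3 → ℝ) (I : Set ℝ) (θ c s a : ℝ) (p : ℝ × E3) : ℝ≥0∞ :=
  ⨆ z, ⨆ _ : p.1 ∈ I ∧ Adm (w p.1) θ c p.2 z ∧ ‖z - p.2‖ ∈ Icc s (3 * s),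
    ENNReal.ofReal (tilt (w p.1) p.2 z - a)

lemma cat {β : Type*} [TopologicalSpace β] {g : ℝ × E3 → β} (h : IsW0 w I Z A)
    (hg : ContinuousOn g ((I \ Z) ×ˢ univ)) {k : (ℝ × E3) × E3 → E3} (hk : Continuous k)
    {y : (ℝ × E3) × E3} (hy : y.1.1 ∈ I \ Z) : ContinuousAt (fun y => g (y.1.1, k y)) y :=
  ContinuousAt.comp (f := fun y : (ℝ × E3) × E3 => (y.1.1, k y))
    (hg.continuousAt ((h.isOpen_reg.prod isOpen_univ).mem_nhds ⟨hy, trivial⟩)) (by fun_prop)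

lemma meas_tb (h : IsW0 w I Z A) (hs : 0 < s) : Measurable (tb w I θ c s a) := by
  refine measurable_of_Ioi fun b => ?_
  have c1 : Continuous fun y : (ℝ × E3) × E3 => y.1.2 := by fun_prop
  have e : tb w I θ c s a ⁻¹' Ioi b = Prod.fst '' ({y : (ℝ × E3) × E3 | y.1.1 ∈ I \ Z ∧
      b < ENNReal.ofReal (tilt (w y.1.1) y.1.2 y.2 - a)} ∩
      {y | Adm (w y.1.1) θ c y.1.2 y.2 ∧ ‖y.2 - y.1.2‖ ∈ Icc s (3 * s)}) := by
    ext p
    simp only [mem_preimage, mem_Ioi, tb, lt_iSup_iff]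
    exact ⟨fun ⟨z, h1, h2⟩ => ⟨(p, z), ⟨⟨⟨h1.1, h.notMem h1.2.1.1⟩, h2⟩, h1.2⟩, rfl⟩,
      fun ⟨y, ⟨h1, h2⟩, h3⟩ => h3 ▸ ⟨y.2, ⟨h1.1.1, h2⟩, h1.2⟩⟩
  rw [e]
  refine meas_proj continuous_fst (isOpen_iff_mem_nhds.2 fun y hy => ?_) fun y hy hy' => ?_
  · have g1 := cat h (continuousOn_grad h) c1 hy.1
    have g2 := cat h (continuousOn_grad h) continuous_snd hy.1
    filter_upwards [(h.isOpen_reg.preimage (f := fun y : (ℝ × E3) × E3 => y.1.1)
      (by fun_prop)).mem_nhds hy.1, (ENNReal.continuous_ofReal.continuousAt.comp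
        ((continuousAt_const.sub (g1.inner (𝕜 := ℝ) g2).abs).sub continuousAt_const)).eventually
          (lt_mem_nhds hy.2)] with q h1 h2 using ⟨h1, h2⟩
  by_contra hf
  replace hf : ∃ᶠ q : (ℝ × E3) × E3 in 𝓝 y,
    Adm (w q.1.1) θ c q.1.2 q.2 ∧ ‖q.2 - q.1.2‖ ∈ Icc s (3 * s) := hf
  have g1 := cat h (continuousOn_grad h) c1 hy.1
  have g2 := cat h (continuousOn_grad h) continuous_snd hy.1
  have c2 : ContinuousAt (fun y : (ℝ × E3) × E3 => y.2 - y.1.2) y := by fun_prop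
  have l1 : 0 < ‖y.2 - y.1.2‖ :=
    hs.trans_le (ge_of_tendsto_of_frequently c2.norm (hf.mono fun q hq => hq.2.1))
  refine hy' ⟨⟨tendsto_nhds_unique_of_frequently_eq (cat h h.smooth.continuousOn c1 hy.1)
    tendsto_const_nhds (hf.mono fun q hq => hq.1.1), tendsto_nhds_unique_of_frequently_eq
    (cat h h.smooth.continuousOn continuous_snd hy.1) tendsto_const_nhds
    (hf.mono fun q hq => hq.1.2.1), norm_sub_pos_iff.1 l1, by_contra fun hr => ?_,
    le_of_tendsto_of_tendsto_of_frequently (c2.norm.const_mul c) (c2.inner (𝕜 := ℝ) g1).abs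
      (hf.mono fun q hq => hq.1.2.2.2.2.1), tendsto_nhds_unique_of_frequently_eq c2
      ((g2.inner (𝕜 := ℝ) c2).smul g2) (hf.mono fun q hq => hq.1.2.2.2.2.2)⟩,
    isClosed_Icc.mem_of_frequently_of_tendsto (hf.mono fun q hq => hq.2) c2.norm⟩
  obtain ⟨a, b, m, -, hw⟩ := h.loc hy.1
  refine hf (((continuousAt_fst.fst.prodMk (continuousAt_fst.snd.prodMk
    (c2.norm.log l1.ne'))).eventually (P218UO.ev_not_reg (θ := θ) hw.toIsFlow m
      (by rwa [Real.exp_log l1]))).mono fun q h1 h2 => h1 ?_)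
  rw [Real.exp_log (hs.trans_le h2.2.1)]
  exact h2.1.2.2.2.1

lemma tb_zero {p : ℝ × E3} {r : ℝ} (h : ∀ z, ‖z - p.2‖ ≤ r → ¬Adm (w p.1) θ c p.2 z)
    (hr : 3 * s ≤ r) : tb w I θ c s a p = 0 :=
  le_zero_iff.1 (iSup₂_le fun z hz => absurd hz.2.1 (h z (hz.2.2.2.trans hr)))

lemma tb_int (hc : 0 < c) (hc1 : c ≤ 1) (h0 : 0 < θ) (h1 : θ ≤ c / 10) (h : IsW0 w I Z A) :
    ∃ C : ℝ, 1 ≤ C ∧ ∀ t ∈ I, ∀ ρ s a : ℝ, 1 ≤ ρ → 0 < s → C * s ^ 2 ≤ a →
      ∫⁻ x in ball 0 ρ, tb w I θ c s a (t, x) ∂(ar (w t)) ≤ ENNReal.ofReal (C ^ 2 * s ^ 2 / a)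
        * ∫⁻ x in ball 0 (25 * ρ), ENNReal.ofReal (hessSq (w t) x) ∂(ar (w t)) := by
  obtain ⟨C, hC, H⟩ := tilt_le hc
  refine ⟨C, hC, fun t ht ρ s a hρ hs ha => ?_⟩
  have h2 : 0 < C * s ^ 2 := by positivity
  have h3 : 0 < a := h2.trans_le ha
  have h4 := Real.sq_sqrt (div_pos h2 h3).le
  obtain ⟨g, g1, g2⟩ := H (w t) (h.slice ht) 0 ρ s _ hs (Real.sqrt_pos.2 (div_pos h2 h3))
    ((Real.sqrt_le_one.2 ((div_le_one h3).2 ha)).trans hρ)
  rw [h4, show C * (C * s ^ 2 / a) = C ^ 2 * s ^ 2 / a by ring] at g1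
  rw [div_pow, h4, show C * (s ^ 2 / (C * s ^ 2 / a)) = a by field_simp] at g2
  exact ((setLIntegral_mono' measurableSet_ball fun x hx => iSup₂_le fun z hz =>
    g2 x hx z (adm_hit h ht h0 h1 hc1 hz.2.1 hz.2.2.2)).trans (setLIntegral_le_lintegral _ _)).trans g1

lemma no_adm (h : IsW0 w I Z A) (hc : 0 < c) {T : Set ℝ} (hT : IsCompact T) (hI : T ⊆ I \ Z)
    (R : ℝ) : ∃ r > 0, ∀ t ∈ T, ∀ x ∈ closedBall (0 : E3) R, ∀ z, ‖z - x‖ ≤ r →
      ¬Adm (w t) θ c x z := by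
  obtain ⟨δ, hδ, H⟩ := Metric.uniformContinuousOn_iff_le.1
    ((hT.prod (isCompact_closedBall (0 : E3) (R + 1))).uniformContinuousOn_of_continuous
      ((continuousOn_grad h).mono (prod_mono hI (subset_univ _)))) (c / 2) (half_pos hc)
  refine ⟨min δ 1, lt_min hδ one_pos, fun t ht x hx z hz ha => ?_⟩
  have h1 := (convex_closedBall x (min δ 1)).norm_image_sub_le_of_norm_fderiv_le' (𝕜 := ℝ)
    (f := w t) (φ := fderiv ℝ (w t) x) (C := c / 2)
    (fun y _ => (h.slice (hI ht).1).smooth.differentiable (by simp) y) (fun y hy => by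
      have := H (t, y) ⟨ht, closedBall_subset_closedBall' (by
        linarith [min_le_right δ 1, mem_closedBall.1 hx]) hy⟩ (t, x)
        ⟨ht, closedBall_subset_closedBall (by linarith) hx⟩
        (by simpa using (mem_closedBall.1 hy).trans (min_le_left _ _))
      rwa [dist_eq_norm, gradient, gradient, ← map_sub, LinearIsometryEquiv.norm_map] at this)
    (mem_closedBall_self (le_min hδ.le zero_le_one)) (mem_closedBall_iff_norm.2 hz)
  rw [ha.1, ha.2.1, sub_zero, zero_sub, norm_neg, ← P218UF.inner_grad, real_inner_comm] at h1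
  nlinarith [ha.2.2.2.2.1.trans h1, norm_sub_pos_iff.2 ha.2.2.1]

lemma small {C : ℝ} (h : IsG0 w I Z A C) (hc : 0 < c) {K : Set (ℝ × E3)} (hK : IsCompact K)
    (hKI : K ⊆ I ×ˢ univ) : ∃ ρ : ℝ, 1 ≤ ρ ∧ ∀ M : ℝ≥0∞, M ≠ ⊤ → ∀ η > 0, ∃ r > 0,
      ∀ f : ℝ × E3 → ℝ≥0∞, Measurable f →
      (∀ p, (∀ z, ‖z - p.2‖ ≤ r → ¬Adm (w p.1) θ c p.2 z) → f p = 0) →
      (∀ t ∈ I, ∫⁻ x in ball 0 ρ, f (t, x) ∂(ar (w t)) ≤ M * (1 +
        ∫⁻ x in ball 0 (25 * ρ), ENNReal.ofReal (hessSq (w t) x) ∂(ar (w t)))) →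
      ∫⁻ p in K, f p ∂(stm w I) ≤ ENNReal.ofReal η := by
  obtain ⟨a, b, R, hR, h1, -, h2⟩ := lint_le_box h.toIsW0 hK hKI
  refine ⟨R + 1, by linarith, fun M hM η hη => ?_⟩
  set D : ℝ → ℝ≥0∞ := fun t => M * (1 + ENNReal.ofReal C * (1 + ∫⁻ x in closedBall 0
    (2 * (25 * (R + 1))), ENNReal.ofReal (lap (w t) x ^ 2) ∂(ar (w t)))) with hD
  have h3 : ∫⁻ t in Icc a b, D t ≠ ⊤ := by
    have := (h.hsq a b h1 _ (isCompact_closedBall 0 (2 * (25 * (R + 1))))).ne
    have := (measure_Icc_lt_top (μ := volume) (a := a) (b := b)).ne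
    rw [lintegral_const_mul' _ _ hM, lintegral_add_left measurable_const,
      lintegral_const_mul' _ _ ENNReal.ofReal_ne_top, lintegral_add_left measurable_const,
      setLIntegral_one]
    finiteness
  obtain ⟨δ, hδ, h4⟩ := exists_pos_setLIntegral_lt_of_measure_lt h3 (ENNReal.ofReal_pos.2 hη).ne'
  obtain ⟨U, hZ, hU, h5⟩ := Z.exists_isOpen_lt_of_lt (μ := volume) δ (h.null ▸ hδ)
  obtain ⟨r, hr, h6⟩ := no_adm (θ := θ) h.toIsW0 hc (isCompact_Icc.diff hU)
    (sdiff_subset_sdiff h1 hZ) R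
  refine ⟨r, hr, fun f hf f0 f1 => (h2 f hf).trans (le_trans ?_
    (h4 U ((Measure.restrict_le_self U).trans_lt h5)).le)⟩
  rw [← lintegral_indicator hU.measurableSet]
  refine setLIntegral_mono' measurableSet_Icc fun t ht => ?_
  by_cases htU : t ∈ U
  · rw [indicator_of_mem htU]
    refine (lintegral_mono_set (closedBall_subset_ball (lt_add_one R))).trans ((f1 t (h1 ht)).trans
      (mul_le_mul_right (add_le_add_right ?_ _) _))
    have hW := h.slice (h1 ht)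
    have := P218UX.locFin hW
    have h7 : ContDiff ℝ 2 (w t) := hW.smooth.of_le (by norm_cast)
    rw [← ofReal_integral_eq_lintegral_ofReal (((P218UF.continuous_hessSq' h7).continuousOn.integrableOn_compact
      (isCompact_closedBall 0 _)).mono_set ball_subset_closedBall)
      (Eventually.of_forall fun x => (sq_nonneg _).trans (P218UF.norm_hs_sq_le h7 x))]
    refine (ENNReal.ofReal_le_ofReal (h.lgb t (h1 ht) 0 _ (by positivity))).trans ?_
    rw [ENNReal.ofReal_mul (by linarith [h.one_le']), ENNReal.ofReal_add zero_le_one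
      (integral_nonneg fun _ => sq_nonneg _), ofReal_hsq h.toIsW0 _ _ (h1 ht), ENNReal.ofReal_one]
    exact mul_le_mul_right (add_le_add_right (lintegral_mono_set ball_subset_closedBall) _) _
  · rw [setLIntegral_congr_fun measurableSet_closedBall fun x hx => f0 (t, x) (h6 t ⟨ht, htU⟩ x hx)]
    simp

theorem errW : ErrW := by
  intro w I Z A C h c θ hc hc1 hθ hθ1 K hK hKI η hη
  obtain ⟨D, hD, H⟩ := tb_int hc hc1 hθ hθ1 h.toIsW0
  obtain ⟨ρ, hρ, hs⟩ := small (θ := θ) h hc hK hKI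
  have lg : ∀ {r y : ℝ}, 0 < r → y ≤ min (Real.log (r / 3)) (-D) → ∀ v ≤ y,
      3 * Real.exp v ≤ r ∧ 2 * D * Real.exp (2 * v) ≤ 1 ∧ D * Real.exp v ≤ 1 := fun hr hy v hv => by
    have a1 := (Real.le_log_iff_exp_le (by positivity)).1 (hv.trans (hy.trans (min_le_left _ _)))
    have a2 := hv.trans (hy.trans (min_le_right _ _))
    have a3 : ∀ k : ℝ, 0 ≤ k → k * D * Real.exp (k * v) ≤ 1 := fun k hk => by
      rw [← le_div_iff₀ (Real.exp_pos _), one_div, ← Real.exp_neg]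
      linarith [Real.add_one_le_exp (-(k * v)), mul_le_mul_of_nonneg_left a2 hk]
    exact ⟨by linarith, a3 2 two_pos.le, by simpa using a3 1 zero_le_one⟩
  obtain ⟨r, hr, h1⟩ := hs (∑' j : ℕ, ENNReal.ofReal (2 * D ^ 2 * Real.exp (j * (-1 / 2))))
    ((Real.summable_exp_nat_mul_iff.2 (by norm_num)).mul_left _).tsum_ofReal_ne_top _ (half_pos hη)
  refine ⟨min (Real.log (r / 3)) (-D), fun ys hys => ?_⟩
  replace hys := lg hr hys
  obtain ⟨r', hr', h2⟩ := hs (ENNReal.ofReal (Real.exp (-ys)) *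
    (ENNReal.ofReal (D ^ 2) + ENNReal.ofReal (A * ρ ^ 2))) (by finiteness) _ (half_pos hη)
  refine ⟨min (Real.log (r' / 3)) (-D), fun y₀ hy₀ => ?_⟩
  obtain ⟨b1, -, b2⟩ := lg hr' hy₀ _ le_rfl
  set S₁ : ℝ × E3 → ℝ≥0∞ := fun p => ∑' j : ℕ, ENNReal.ofReal (Real.exp (j + 1 - 2 * ys))
    * tb w I θ c (Real.exp (ys - (j + 1))) (Real.exp (-(j + 1) / 2) / 2) p with hS₁
  set S₂ : ℝ × E3 → ℝ≥0∞ := fun p => ENNReal.ofReal (Real.exp (-ys - y₀))
    * tb w I θ c (Real.exp y₀) 0 p with hS₂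
  have m0 : ∀ u a, Measurable (tb w I θ c (Real.exp u) a) := fun u a =>
    meas_tb h.toIsW0 (Real.exp_pos u)
  have m1 : Measurable S₁ := Measurable.tsum fun j => (m0 _ _).const_mul _
  have m2 : Measurable S₂ := (m0 _ _).const_mul _
  have hj : ∀ j : ℕ, ys - (j + 1) ≤ ys := fun j => sub_le_self _ (by positivity)
  have fin : ∀ p, min (ENNReal.ofReal (Real.exp (-ys - y₀))) (S₁ p + S₂ p) ≠ ⊤ := fun p =>
    ((min_le_left _ _).trans_lt ENNReal.ofReal_lt_top).ne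
  refine ⟨fun p => (min (ENNReal.ofReal (Real.exp (-ys - y₀))) (S₁ p + S₂ p)).toReal,
    (measurable_const.min (m1.add m2)).ennreal_toReal, ⟨_, fun p => ⟨ENNReal.toReal_nonneg,
      ENNReal.toReal_le_of_le_ofReal (Real.exp_pos _).le (min_le_left _ _)⟩⟩, ?_,
    fun p hp z u ha hu u1 u2 => ?_⟩
  · refine (lintegral_mono fun p => ENNReal.ofReal_toReal_le.trans (min_le_right _ _)).trans ?_
    rw [lintegral_add_left m1, ← add_halves η, ENNReal.ofReal_add (half_pos hη).le (half_pos hη).le]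
    refine add_le_add (h1 _ m1 (fun p hp => ENNReal.tsum_eq_zero.2 fun j => by
      rw [tb_zero hp (hys _ (hj j)).1, mul_zero]) fun t ht => ?_)
      (h2 _ m2 (fun p hp => by rw [hS₂]; simp only; rw [tb_zero hp b1, mul_zero]) fun t ht => ?_)
    · refine (lintegral_tsum fun j =>
        (((m0 _ _).comp measurable_prodMk_left).const_mul _).aemeasurable).trans_le ?_
      rw [← ENNReal.tsum_mul_right]
      refine ENNReal.tsum_le_tsum fun j => ?_
      rw [lintegral_const_mul' _ _ ENNReal.ofReal_ne_top]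
      refine (mul_le_mul_right (H t ht ρ _ _ hρ (Real.exp_pos _) ?_) _).trans ?_
      · have a1 := (hys _ le_rfl).2.1
        have a2 : Real.exp (ys - (j + 1)) ^ 2 ≤ Real.exp (2 * ys) * Real.exp (-(j + 1) / 2) := by
          rw [sq, ← Real.exp_add, ← Real.exp_add]
          exact Real.exp_le_exp.2 (by linarith [hj j])
        nlinarith [mul_le_mul_of_nonneg_right a1 (Real.exp_pos (-(j + 1) / 2)).le]
      rw [← mul_assoc, ← ENNReal.ofReal_mul (Real.exp_pos _).le]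
      refine mul_le_mul' (ENNReal.ofReal_le_ofReal ?_) le_add_self
      rw [← mul_div_assoc, div_le_iff₀ (by positivity), sq (Real.exp _), mul_left_comm,
        ← Real.exp_add, ← Real.exp_add, show ∀ a b : ℝ, 2 * D ^ 2 * a * (b / 2) = D ^ 2 * (a * b) from
          fun a b => by ring, ← Real.exp_add]
      exact mul_le_mul_of_nonneg_left (Real.exp_le_exp.2 (by linarith)) (sq_nonneg _)
    · have e0 := Real.exp_pos y₀
      have a1 : ∀ x, tb w I θ c (Real.exp y₀) 0 (t, x) ≤ tb w I θ c (Real.exp y₀) (Real.exp y₀) (t, x)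
          + ENNReal.ofReal (Real.exp y₀) := fun x => iSup₂_le fun z hz => by
        refine ((ENNReal.ofReal_le_ofReal (q := tilt (w t) x z - Real.exp y₀ + Real.exp y₀)
          (by simp)).trans ENNReal.ofReal_add_le).trans (add_le_add_left ?_ _)
        exact le_iSup₂_of_le (f := fun z (_ : t ∈ I ∧ Adm (w t) θ c x z ∧ ‖z - x‖ ∈
          Icc _ (3 * Real.exp y₀)) => ENNReal.ofReal (tilt (w t) x z - Real.exp y₀)) z hz le_rfl
      rw [lintegral_const_mul' _ _ ENNReal.ofReal_ne_top]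
      refine (mul_le_mul_right (lintegral_mono a1) _).trans ?_
      rw [lintegral_add_right _ measurable_const, setLIntegral_const]
      refine (mul_le_mul_right (add_le_add (H t ht ρ _ _ hρ e0 (by nlinarith)) (mul_le_mul_right
        ((measure_mono ball_subset_closedBall).trans (h.ratio t ht 0 ρ (by linarith))) _)) _).trans ?_
      rw [show D ^ 2 * Real.exp y₀ ^ 2 / Real.exp y₀ = Real.exp y₀ * D ^ 2 by field_simp,
        ENNReal.ofReal_mul e0.le, mul_assoc, ← mul_add, ← mul_assoc,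
        ← ENNReal.ofReal_mul (Real.exp_pos _).le, ← Real.exp_add, sub_add_cancel, mul_assoc, add_mul]
      exact mul_le_mul_right (add_le_add (mul_le_mul_right le_add_self _)
        (le_mul_of_one_le_right' le_self_add)) _
  have key : ∀ k k' b a v : ℝ, k ≤ -ys - y₀ → k ≤ k' → 0 ≤ a → a ≤ b → v ≤ u → u ≤ v + 1 →
      ENNReal.ofReal (Real.exp k') * tb w I θ c (Real.exp v) a p ≤ S₁ p + S₂ p →
      Real.exp k * (tilt (w p.1) p.2 z - b)
        ≤ (min (ENNReal.ofReal (Real.exp (-ys - y₀))) (S₁ p + S₂ p)).toReal :=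
    fun k k' b a v k1 k2 a0 ab v1 v2 e => by
      rw [← ENNReal.ofReal_le_iff_le_toReal (fin p), ENNReal.ofReal_mul (Real.exp_pos _).le]
      refine le_min ((mul_le_mul' (ENNReal.ofReal_le_ofReal (Real.exp_le_exp.2 k1))
        (ENNReal.ofReal_le_one.2 ?_)).trans_eq (mul_one _)) (le_trans (mul_le_mul'
          (ENNReal.ofReal_le_ofReal (Real.exp_le_exp.2 k2)) (le_iSup₂_of_le z ⟨(hKI hp).1, ha,
            hu ▸ Real.exp_le_exp.2 v1, hu ▸ (Real.exp_le_exp.2 v2).trans ?_⟩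
              (ENNReal.ofReal_le_ofReal (by linarith)))) e)
      · linarith [show tilt (w p.1) p.2 z ≤ 1 from sub_le_self _ (abs_nonneg _)]
      · rw [Real.exp_add, mul_comm]
        exact mul_le_mul_of_nonneg_right Real.exp_one_lt_three.le (Real.exp_pos _).le
  refine ⟨?_, fun u3 => ?_⟩
  · have a1 := Nat.floor_le (sub_nonneg.2 u2)
    have a2 := Nat.lt_floor_add_one (ys - u)
    rw [← Real.exp_add]
    exact key _ _ _ _ _ (by linarith) (by linarith) (by positivity)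
      (div_le_div_of_nonneg_right (Real.exp_le_exp.2 (by linarith)) two_pos.le) (by linarith)
      (by linarith) ((ENNReal.le_tsum ⌊ys - u⌋₊).trans le_self_add)
  · rw [← Real.exp_add, ← sub_zero (tilt _ _ _)]
    exact key _ _ _ _ _ (by linarith) (by linarith) le_rfl le_rfl u1 u3 le_add_self

end Vale.Agent.P218WT
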