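import Vale.Agent.P218WA.Props
import Vale.Agent.P218UF.FL
import Mathlib.MeasureTheory.Integral.Layercake

/-! Transport of sets and functions along rays. -/

open MeasureTheory Set Filter Topology Metric
open scoped ENNReal NNReal RealInnerProductSpace

namespace Vale.Agent.P218WT

open Vale.Agent.P218UA Vale.Agent.P218WA

/-- the projection of a locally closed set is measurable -/
lemma meas_proj {X Y : Type*} [TopologicalSpace X] [T2Space X] [MeasurableSpace X]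
    [OpensMeasurableSpace X] [TopologicalSpace Y] [LocallyCompactSpace Y]
    [SecondCountableTopology Y] {f : Y → X} (hf : Continuous f) {O C : Set Y} (hO : IsOpen O)
    (h : ∀ p ∈ O, p ∉ C → ∀ᶠ q in 𝓝 p, q ∉ C) : MeasurableSet (f '' (O ∩ C)) := by
  have := hO.locallyCompactSpace
  have h1 : IsClosed (Subtype.val ⁻¹' C : Set O) := by
    rw [← isOpen_compl_iff, isOpen_iff_mem_nhds]
    exact fun p hp => continuous_subtype_val.continuousAt.eventually (h p p.2 hp)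
  obtain ⟨K, hK, e⟩ := (isSigmaCompact_univ.of_isClosed_subset h1 (subset_univ _)).image
    (hf.comp continuous_subtype_val)
  rw [image_comp, Subtype.image_preimage_coe] at e
  rw [← e]
  exact MeasurableSet.iUnion fun n => (hK n).measurableSet

variable {W : E3 → ℝ} {n : E3 → E3} {c S : ℝ}

/-- the end point of the ray -/
noncomputable def ray (n : E3 → E3) (q : E3 × ℝ) : E3 := q.1 + q.2 • n q.1

lemma exists_lip (hW : ContDiff ℝ 1 W) (hn : ContDiff ℝ 1 n) (hc : 0 < c) (hS : 0 ≤ S)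
    {q : E3 × ℝ} (h1 : ‖gradient W (ray n q)‖ = 1) (h2 : c ≤ |⟪n q.1, gradient W (ray n q)⟫|) :
    ∃ t ∈ 𝓝 q, ∃ K : ℝ≥0,
      (∀ a ∈ t, (K : ℝ) ^ 2 ≤ 72 * (1 + 2 / c) ^ 2 * (1 + S ^ 2 * ‖fderiv ℝ n a.1‖ ^ 2)) ∧
      ∀ a ∈ t, ∀ b ∈ t, W (ray n a) = 0 → W (ray n b) = 0 → |a.2| ≤ S → ‖n b.1‖ ≤ 1 →
        dist (ray n a) (ray n b) ≤ K * dist a.1 b.1 := by
  set ν := gradient W (ray n q)
  set δ : ℝ := 1 / (S + 1) with hδ
  have hδ0 : 0 < δ := by positivity
  have hδ1 : S * δ ≤ 1 := by rw [hδ, mul_one_div, div_le_one (by linarith)]; linarith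
  have cr : Continuous (ray n) := by have := hn.continuous; unfold ray; fun_prop
  obtain ⟨U, hU, e1⟩ := (eventually_prod_self_iff (r := fun x y : E3 =>
    ‖W x - W y - fderiv ℝ W (ray n q) (x - y)‖ ≤ c / 4 * ‖x - y‖)).1 (by
      rw [← nhds_prod_eq]
      exact (hW.contDiffAt.hasStrictFDerivAt one_ne_zero).isLittleO.bound (by positivity))
  obtain ⟨V, hV, e2⟩ := (eventually_prod_self_iff (r := fun x y : E3 =>
    ‖n x - n y - fderiv ℝ n q.1 (x - y)‖ ≤ δ * ‖x - y‖)).1 (by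
      rw [← nhds_prod_eq]
      exact (hn.contDiffAt.hasStrictFDerivAt one_ne_zero).isLittleO.bound hδ0)
  have e3 : ∀ᶠ a : E3 × ℝ in 𝓝 q, c / 2 < |⟪n a.1, ν⟫| :=
    (show ContinuousAt (fun a : E3 × ℝ => |⟪n a.1, ν⟫|) q by
      have := hn.continuous; fun_prop).eventually (lt_mem_nhds (by linarith))
  have e4 : ∀ᶠ a : E3 × ℝ in 𝓝 q, ‖fderiv ℝ n q.1‖ - δ < ‖fderiv ℝ n a.1‖ :=
    (show ContinuousAt (fun a : E3 × ℝ => ‖fderiv ℝ n a.1‖) q by
      have := hn.continuous_fderiv one_ne_zero; fun_prop).eventually (lt_mem_nhds (by linarith))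
  set Λ := 2 + S * ‖fderiv ℝ n q.1‖ with hΛ
  have hΛ0 : 0 ≤ Λ := by positivity
  refine ⟨_, ((cr.continuousAt.eventually hU).and (continuousAt_fst.eventually hV)).and
    (e3.and e4), (2 * (1 + 2 / c) * Λ).toNNReal, fun a ha => ?_,
    fun a ha b hb wa wb hσ hb1 => ?_⟩
  · have h3 : Λ ≤ 3 + S * ‖fderiv ℝ n a.1‖ := by nlinarith [ha.2.2]
    have h4 : Λ ^ 2 ≤ 18 * (1 + S ^ 2 * ‖fderiv ℝ n a.1‖ ^ 2) := by
      nlinarith [pow_le_pow_left₀ hΛ0 h3 2, sq_nonneg (S * ‖fderiv ℝ n a.1‖ - 3),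
        sq_nonneg (S * ‖fderiv ℝ n a.1‖)]
    have h5 := mul_le_mul_of_nonneg_left h4 (sq_nonneg (2 * (1 + 2 / c)))
    rw [Real.coe_toNNReal _ (by positivity)]
    nlinarith
  · rw [Real.coe_toNNReal _ (by positivity), dist_eq_norm, dist_eq_norm]
    set d := ‖a.1 - b.1‖
    set D := ‖ray n a - ray n b‖
    have f1 := e1 _ ha.1.1 _ hb.1.1
    rw [wa, wb, sub_self, zero_sub, norm_neg, ← P218UF.inner_grad, Real.norm_eq_abs] at f1
    have f2 : ‖n a.1 - n b.1‖ ≤ (‖fderiv ℝ n q.1‖ + δ) * d := by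
      have := norm_add_le (n a.1 - n b.1 - fderiv ℝ n q.1 (a.1 - b.1)) (fderiv ℝ n q.1 (a.1 - b.1))
      rw [sub_add_cancel] at this
      linarith [e2 _ ha.1.2 _ hb.1.2, (fderiv ℝ n q.1).le_opNorm (a.1 - b.1)]
    set v := a.1 - b.1 + a.2 • (n a.1 - n b.1) with hv
    have f3 : ‖v‖ ≤ Λ * d := by
      refine (norm_add_le _ _).trans ?_
      rw [norm_smul, Real.norm_eq_abs]
      have := mul_le_mul hσ f2 (norm_nonneg _) hS
      nlinarith [norm_nonneg (a.1 - b.1)]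
    have f4 : ray n a - ray n b = v + (a.2 - b.2) • n b.1 := by
      simp only [hv, ray, smul_sub, sub_smul]; abel
    have f5 : |a.2 - b.2| * (c / 2) ≤ c / 4 * D + Λ * d := by
      have g1 : (a.2 - b.2) * ⟪n b.1, ν⟫ = ⟪ν, ray n a - ray n b⟫ - ⟪ν, v⟫ := by
        rw [f4, inner_add_right, real_inner_smul_right, real_inner_comm]; ring
      have g2 := abs_real_inner_le_norm ν v
      have g3 := abs_sub ⟪ν, ray n a - ray n b⟫ ⟪ν, v⟫
      rw [← g1, abs_mul] at g3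
      rw [h1] at g2
      nlinarith [mul_le_mul_of_nonneg_left hb.2.1.le (abs_nonneg (a.2 - b.2))]
    have f6 : D ≤ Λ * d + |a.2 - b.2| := by
      have := norm_add_le v ((a.2 - b.2) • n b.1)
      rw [← f4, norm_smul, Real.norm_eq_abs] at this
      nlinarith [abs_nonneg (a.2 - b.2)]
    have f7 : |a.2 - b.2| ≤ D / 2 + 2 / c * (Λ * d) := by
      refine le_of_mul_le_mul_right (f5.trans (le_of_eq ?_)) (half_pos hc)
      field_simp
      ring
    nlinarith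

/-- the set of the first hits with a given sign -/
def hs (W : E3 → ℝ) (n : E3 → E3) (c S ε : ℝ) (E : Set E3) : Set (E3 × ℝ) :=
  {q | q.1 ∈ E ∧ W q.1 = 0 ∧ W (ray n q) = 0 ∧ c ≤ |⟪n q.1, gradient W (ray n q)⟫| ∧
    0 < ε * q.2 ∧ |q.2| ≤ S ∧ ∀ τ ∈ Ioo (0 : ℝ) 1, W (q.1 + (τ * q.2) • n q.1) ≠ 0}

lemma meas_hs (hW : ContDiff ℝ 1 W) (hn : Continuous n) (ε : ℝ) {E : Set E3}
    (hE : MeasurableSet E) : MeasurableSet (hs W n c S ε E) := by
  have cr : Continuous (ray n) := by unfold ray; fun_prop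
  have cw := hW.continuous
  have cg := P218UF.continuous_grad hW
  have h1 := meas_proj (f := fun p : (E3 × ℝ) × ℝ => p.1) continuous_fst
    (O := {p | p.2 ∈ Ioo (0 : ℝ) 1}) (C := {p | W (p.1.1 + (p.2 * p.1.2) • n p.1.1) = 0})
    (isOpen_Ioo.preimage continuous_snd) fun p _ hp =>
      (isClosed_eq (by fun_prop) continuous_const).isOpen_compl.mem_nhds hp
  refine (measurable_fst hE).inter ((isClosed_eq (cw.comp continuous_fst)
    continuous_const).measurableSet.inter ((isClosed_eq (cw.comp cr)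
    continuous_const).measurableSet.inter ((isClosed_le continuous_const
    ((hn.comp continuous_fst).inner (𝕜 := ℝ) (cg.comp cr)).abs).measurableSet.inter
    ((isOpen_lt continuous_const (continuous_const.mul continuous_snd)).measurableSet.inter
    ((isClosed_le continuous_snd.abs continuous_const).measurableSet.inter ?_)))))
  refine h1.compl.congr (Set.ext fun q => ⟨fun h τ hτ h0 => h ⟨(q, τ), ⟨hτ, h0⟩, rfl⟩, ?_⟩)
  rintro h ⟨p, ⟨hp, h0⟩, rfl⟩
  exact h _ hp h0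

lemma inj_hs (ε : ℝ) (E : Set E3) : InjOn Prod.fst (hs W n c S ε E) := by
  have key : ∀ a ∈ hs W n c S ε E, ∀ b ∈ hs W n c S ε E, a.1 = b.1 → ¬|a.2| < |b.2| := by
    intro a ha b hb e h
    have hb0 : b.2 ≠ 0 := fun h0 => by have := hb.2.2.2.2.1; simp [h0] at this
    have h1 : 0 < a.2 / b.2 := by
      have := mul_pos ha.2.2.2.2.1 hb.2.2.2.2.1
      have h2 : 0 < a.2 * b.2 := by
        by_contra h3
        nlinarith [sq_nonneg ε]
      rw [show a.2 / b.2 = a.2 * b.2 / b.2 ^ 2 by field_simp]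
      positivity
    refine hb.2.2.2.2.2.2 (a.2 / b.2) ⟨h1, ?_⟩ ?_
    · rwa [← abs_of_pos h1, abs_div, div_lt_one (abs_pos.2 hb0)]
    · rw [div_mul_cancel₀ _ hb0, ← e]
      exact ha.2.2.1
  intro a ha b hb e
  refine Prod.ext e ?_
  have h1 : |a.2| = |b.2| := le_antisymm (not_lt.1 (key b hb a ha e.symm)) (not_lt.1 (key a ha b hb e))
  rcases abs_eq_abs.1 h1 with h | h
  · exact h
  · have h2 := ha.2.2.2.2.1
    have h3 := hb.2.2.2.2.1
    rw [h] at h2
    linarith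

lemma push_hs (hW : IsSurf W) (hn : ContDiff ℝ 1 n) (h1 : ∀ z, W z = 0 → ‖n z‖ ≤ 1) (hc : 0 < c)
    (hS : 0 ≤ S) (ε : ℝ) {E : Set E3} (hE : MeasurableSet E) :
    (μHE[2] : Measure E3) (ray n '' hs W n c S ε E) ≤ ∫⁻ z in E,
      ENNReal.ofReal (72 * (1 + 2 / c) ^ 2 * (1 + S ^ 2 * ‖fderiv ℝ n z‖ ^ 2)) ∂(ar W) := by
  have hW1 : ContDiff ℝ 1 W := hW.smooth.of_le (by norm_cast)
  set H := hs W n c S ε E
  have hH : MeasurableSet H := meas_hs hW1 hn.continuous ε hE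
  choose! t ht K hK1 hK2 using fun q (hq : q ∈ H) =>
    exists_lip hW1 hn hc hS (hW.eik _ hq.2.2.1).self_of_nhds hq.2.2.2.1
  obtain ⟨A, hAm, hAd, hAc, hAt⟩ := P218GA.exists_partition ht
  have hm : ∀ k, MeasurableSet (Prod.fst '' (H ∩ A k)) := fun k =>
    (hH.inter (hAm k)).image_of_continuousOn_injOn continuousOn_fst
      ((inj_hs ε E).mono inter_subset_left)
  have hd : Pairwise (Function.onFun Disjoint fun k => Prod.fst '' (H ∩ A k)) := fun i j hij => by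
    rw [Function.onFun, disjoint_left]
    rintro _ ⟨a, ha, rfl⟩ ⟨b, hb, e⟩
    exact disjoint_left.1 (hAd hij) ha.2 (inj_hs ε E hb.1 ha.1 e ▸ hb.2)
  have h2 : ray n '' H ⊆ ⋃ k, ray n '' (H ∩ A k) := by
    rintro _ ⟨a, ha, rfl⟩
    obtain ⟨k, hk⟩ := mem_iUnion.1 (hAc ha)
    exact mem_iUnion.2 ⟨k, a, ⟨ha, hk⟩, rfl⟩
  rw [ar, Measure.restrict_restrict hE]
  refine (measure_mono h2).trans ((measure_iUnion_le _).trans (le_trans
    (ENNReal.tsum_le_tsum fun k => ?_) ((lintegral_iUnion hm hd _).symm.trans_le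
      (lintegral_mono_set (iUnion_subset fun k => ?_)))))
  · rcases hAt k with h0 | ⟨q, hq, hA⟩
    · simp [h0]
    have h3 := P218GA.img_le (f := ray n) (L := Prod.fst) (t := H ∩ A k) (K := K q)
      (fun a ha b hb => hK2 q hq a (hA ha.2) b (hA hb.2) ha.1.2.2.1 hb.1.2.2.1 ha.1.2.2.2.2.2.1
        (h1 _ hb.1.2.1)) (d := ((2 : ℕ) : ℝ)) (by positivity)
    refine le_trans ?_ (setLIntegral_mono' (f := fun _ => (K q : ℝ≥0∞) ^ 2) (hm k) ?_)
    · rw [setLIntegral_const]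
      simp only [Measure.euclideanHausdorffMeasure_def, Measure.smul_apply]
      rw [ENNReal.smul_def, ENNReal.smul_def, smul_eq_mul, smul_eq_mul, mul_left_comm]
      refine mul_le_mul_right ?_ _
      simpa using h3
    · rintro _ ⟨a, ha, rfl⟩
      rw [← ENNReal.coe_pow, ← ENNReal.ofReal_coe_nnreal]
      exact ENNReal.ofReal_le_ofReal (by push_cast; exact hK1 q hq a (hA ha.2))
  · rintro _ ⟨a, ha, rfl⟩
    exact ⟨ha.1.1, ha.1.2.1⟩

/-- transport of a function along the rays -/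
theorem push (hW : IsSurf W) (hn : ContDiff ℝ 1 n) (h1 : ∀ z, W z = 0 → ‖n z‖ ≤ 1) (hc : 0 < c)
    (hS : 0 ≤ S) {g : E3 → ℝ≥0∞} (hg : Measurable g) (hg1 : ∀ z, g z ≤ 1) :
    ∫⁻ x, ⨆ z, ⨆ _ : Hit W n c S z x, g z ∂(ar W) ≤ 2 * ∫⁻ z, g z *
      ENNReal.ofReal (72 * (1 + 2 / c) ^ 2 * (1 + S ^ 2 * ‖fderiv ℝ n z‖ ^ 2)) ∂(ar W) := by
  set ρ : E3 → ℝ≥0∞ := fun z =>
    ENNReal.ofReal (72 * (1 + 2 / c) ^ 2 * (1 + S ^ 2 * ‖fderiv ℝ n z‖ ^ 2))
  have hρ : Measurable ρ := Measurable.ennreal_ofReal (Continuous.measurable (by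
    have := hn.continuous_fderiv one_ne_zero; fun_prop))
  obtain ⟨φ, hφ, h2, h3⟩ := exists_measurable_le_lintegral_eq (μ := ar W)
    fun x => ⨆ z, ⨆ _ : Hit W n c S z x, g z
  have fin : ∀ {a : ℝ≥0∞}, a ≤ 1 → ENNReal.ofReal a.toReal = a := fun h =>
    ENNReal.ofReal_toReal (h.trans_lt ENNReal.one_lt_top).ne
  have h4 : ∀ x, φ x ≤ 1 := fun x => (h2 x).trans (iSup₂_le fun z _ => hg1 z)
  have h5 := lintegral_eq_lintegral_meas_lt (ar W) (f := fun x => (φ x).toReal)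
    (Eventually.of_forall fun _ => ENNReal.toReal_nonneg) hφ.ennreal_toReal.aemeasurable
  have h6 := lintegral_eq_lintegral_meas_lt ((ar W).withDensity ρ) (f := fun x => (g x).toReal)
    (Eventually.of_forall fun _ => ENNReal.toReal_nonneg) hg.ennreal_toReal.aemeasurable
  simp only [fin (h4 _)] at h5
  simp only [fin (hg1 _)] at h6
  rw [lintegral_withDensity_eq_lintegral_mul _ hρ hg] at h6
  rw [h3, h5, show ∫⁻ z, g z * ρ z ∂(ar W) = ∫⁻ z, (ρ * g) z ∂(ar W) from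
    lintegral_congr fun z => mul_comm _ _, h6, ← lintegral_const_mul' _ _ (by norm_num)]
  refine setLIntegral_mono' measurableSet_Ioi fun t ht => ?_
  have hE : MeasurableSet {z | t < (g z).toReal} := measurableSet_lt measurable_const hg.ennreal_toReal
  rw [withDensity_apply _ hE, two_mul]
  refine le_trans (le_trans (measure_mono fun x hx => ?_) (Measure.restrict_le_self _))
    ((measure_union_le _ _).trans (add_le_add (push_hs hW hn h1 hc hS 1 hE)
      (push_hs hW hn h1 hc hS (-1) hE)))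
  have h7 : ENNReal.ofReal t < φ x := by
    rw [← fin (h4 x)]
    exact (ENNReal.ofReal_lt_ofReal_iff_of_nonneg (le_of_lt ht)).2 hx
  obtain ⟨z, h8⟩ := lt_iSup_iff.1 (h7.trans_le (h2 x))
  obtain ⟨⟨a1, a2, a3, σ, a4, a5, rfl, a6⟩, h9⟩ := lt_iSup_iff.1 h8
  rw [← fin (hg1 z), ENNReal.ofReal_lt_ofReal_iff_of_nonneg (le_of_lt ht)] at h9
  rcases lt_or_gt_of_ne a4 with h | h
  · exact Or.inr ⟨(z, σ), ⟨h9, a1, a2, a3, by simpa using h, a5, a6⟩, rfl⟩
  · exact Or.inl ⟨(z, σ), ⟨h9, a1, a2, a3, by simpa using h, a5, a6⟩, rfl⟩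

end Vale.Agent.P218WT
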