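import Vale.Agent.P218WT.Curve

/-! Two close sheets which do not cross are almost parallel. -/

open MeasureTheory Set Filter Topology Metric
open scoped ENNReal NNReal RealInnerProductSpace

namespace Vale.Agent.P218WT

open Vale.Agent.P218UF Vale.Agent.P218WA
open Vale.Agent.P218.H63 (hessSq)

lemma exists_zero {d e : ℝ → ℝ} {m R τ : ℝ} (hd : ∀ σ, HasDerivAt d (e σ) σ) (hR : 0 ≤ R)
    (hτ : τ = 1 ∨ τ = -1) (h : ∀ σ ∈ Icc (-R) R, m ≤ τ * e σ) (h0 : |d 0| ≤ m * R) :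
    ∃ σ ∈ Icc (-R) R, d σ = 0 := by
  have dd : ∀ σ, HasDerivAt (fun σ => τ * d σ) (τ * e σ) σ := fun σ => (hd σ).const_mul τ
  have dc : Continuous fun σ => τ * d σ := continuous_iff_continuousAt.2 fun s => (dd s).continuousAt
  have mono := (convex_Icc (-R) R).mul_sub_le_image_sub_of_le_deriv dc.continuousOn
    (fun s _ => (dd s).differentiableAt.differentiableWithinAt) (C := m)
    (fun s hs => by rw [(dd s).deriv]; exact h s (interior_subset hs))
  have m1 := mono 0 ⟨by linarith, hR⟩ R ⟨by linarith, le_rfl⟩ hR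
  have m2 := mono (-R) ⟨le_rfl, by linarith⟩ 0 ⟨by linarith, hR⟩ (by linarith)
  have m3 : |τ * d 0| ≤ m * R := by rcases hτ with rfl | rfl <;> simpa using h0
  obtain ⟨s, hs, h1⟩ := intermediate_value_Icc (a := -R) (b := R) (by linarith) dc.continuousOn
    (show (0 : ℝ) ∈ Icc (τ * d (-R)) (τ * d R) from
      ⟨by linarith [(abs_le.1 m3).2], by linarith [(abs_le.1 m3).1]⟩)
  refine ⟨s, hs, (mul_eq_zero.1 h1).resolve_left ?_⟩
  rcases hτ with rfl | rfl <;> norm_num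

variable (S : Dat) (F : Frame)

lemma u_sub (p q : E3) : |S.u F p - S.u F q| ≤ ‖gradient S.w p - gradient S.w q‖ := by
  have := abs_inner_le (x := gradient S.w p - gradient S.w q) F.hn
  rwa [inner_sub_left] at this

lemma sl_eq {p : E3} (hp : S.w p = 0) (h : 1 / 2 ≤ |S.u F p|) : S.sl F p * S.u F p = -S.a F p :=
  S.sl_mul F h ((S.abs_a_le F hp).trans (by linarith))

lemma sl_sub {p q : E3} {η : ℝ} (hp : S.w p = 0) (hq : S.w q = 0) (h1 : 1 / 2 ≤ |S.u F p|)
    (h2 : 1 / 2 ≤ |S.u F q|) (h : ‖gradient S.w p - gradient S.w q‖ ≤ η) :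
    |S.sl F p - S.sl F q| ≤ 8 * η := by
  have a1 := (u_sub S F p q).trans h
  have a2 : |S.a F p - S.a F q| ≤ η := by
    have := abs_inner_le (x := gradient S.w p - gradient S.w q) F.he
    rw [inner_sub_left] at this
    exact this.trans h
  have e : (S.sl F p - S.sl F q) * S.u F p
      = -(S.a F p - S.a F q) - S.sl F q * (S.u F p - S.u F q) := by
    linear_combination sl_eq S F hp h1 - sl_eq S F hq h2
  have a3 := abs_sub (-(S.a F p - S.a F q)) (S.sl F q * (S.u F p - S.u F q))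
  rw [← e, abs_mul, abs_mul, abs_neg] at a3
  have a4 := mul_le_mul (S.abs_sl F q) a1 (abs_nonneg _) two_pos.le
  nlinarith [abs_nonneg (S.sl F p - S.sl F q), abs_nonneg (S.a F p - S.a F q)]

/-- the curvature energy in `B` -/
noncomputable def en (B : Set E3) : E3 → ℝ≥0∞ := B.indicator fun x => ENNReal.ofReal (hessSq S.w x)

lemma meas_en {B : Set E3} (hB : MeasurableSet B) : Measurable (en S B) :=
  ((continuous_hessSq' S.hw).measurable.ennreal_ofReal).indicator hB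

/-- the majorant of the tilt in one frame -/
noncomputable def ph (s R : ℝ) (B : Set E3) (y : E3) : ℝ≥0∞ :=
  ENNReal.ofReal R * jop S F.swap (4 * R) (en S B) y
    + ENNReal.ofReal (R / s) * jop S F.swap (4 * s) (jop S F (4 * R) (en S B)) y

lemma meas_ph (s R : ℝ) {B : Set E3} (hB : MeasurableSet B) : Measurable (ph S F s R B) :=
  ((meas_jop S _ _ (meas_en S hB)).const_mul _).add
    ((meas_jop S _ _ (meas_jop S _ _ (meas_en S hB))).const_mul _)

lemma int_ph {s R : ℝ} (hs : 0 < s) (hR : 0 < R) {B : Set E3} (hB : MeasurableSet B) :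
    ∫⁻ y, ph S F s R B y ∂(ar S.w) ≤ ENNReal.ofReal (272 * R ^ 2) * ∫⁻ y, en S B y ∂(ar S.w) := by
  have m := meas_en S hB
  simp only [ph]
  rw [lintegral_add_left ((meas_jop S _ _ m).const_mul _),
    lintegral_const_mul' _ _ ENNReal.ofReal_ne_top, lintegral_const_mul' _ _ ENNReal.ofReal_ne_top]
  refine (add_le_add (mul_le_mul_right (int_jop S _ _ m) _) (mul_le_mul_right
    ((int_jop S _ _ (meas_jop S _ _ m)).trans (mul_le_mul_right (int_jop S _ _ m) _)) _)).trans_eq ?_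
  simp only [← mul_assoc (G := ℝ≥0∞)]
  rw [← add_mul, ← ENNReal.ofReal_mul hR.le,
    ← ENNReal.ofReal_mul (by positivity), ← ENNReal.ofReal_mul (by positivity),
    ← ENNReal.ofReal_add (by positivity) (by positivity)]
  congr 2
  field_simp
  ring

lemma le_of_mul {a : ℝ≥0∞} {r b c : ℝ} (hr : 0 < r) (h : ENNReal.ofReal r * a ≤ ENNReal.ofReal b)
    (hc : b / r ≤ c) : a ≤ ENNReal.ofReal c := by
  refine le_trans ?_ (ENNReal.ofReal_le_ofReal hc)
  rw [ENNReal.ofReal_div_of_pos hr, ENNReal.le_div_iff_mul_le (Or.inl (by simpa))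
    (Or.inl ENNReal.ofReal_ne_top), mul_comm]
  exact h

lemma geo {s R ω : ℝ} {x z : E3} {B : Set E3} (hBm : MeasurableSet B) (hs : 0 < s) (hsR : s ≤ R)
    (hB : closedBall x (24 * R) ⊆ B) (hx : S.w x = 0) (hz : S.w z = 0) (hd : ‖z - x‖ ≤ 3 * s)
    (ux : 3 / 5 ≤ |S.u F x|) (uz : 3 / 5 ≤ |S.u F z|) (hω : 0 < ω) (hω2 : ω ≤ 2)
    (hsl : ω / 2 ≤ |S.sl F z - S.sl F x|) (hR : 150 * s ≤ ω * R) :
    ENNReal.ofReal (ω ^ 2 / 360000) < ph S F s R B x + ph S F s R B z := by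
  by_contra! h
  have hR0 : 0 < R := by linarith
  have hη : 0 < ω / 100 := by positivity
  have hq : ω ^ 2 / 360000 / R ≤ (ω / 100) ^ 2 / (9 * (4 * R)) := le_of_eq (by field_simp; ring)
  have hball : ∀ y, ‖y - x‖ ≤ 12 * s → closedBall y (3 * (4 * R)) ⊆ B := fun y hy =>
    (closedBall_subset_closedBall' (by rw [dist_eq_norm]; linarith)).trans hB
  have gx := go S F.swap hBm (by positivity : 0 < 4 * R) hη (hball x (by simp; linarith)) hx
    (show _ < |S.u F x| by linarith) (le_of_mul hR0 (le_self_add.trans (le_self_add.trans h)) hq)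
  have gz := go S F.swap hBm (by positivity : 0 < 4 * R) hη (hball z (by linarith)) hz
    (show _ < |S.u F z| by linarith) (le_of_mul hR0 (le_self_add.trans (le_add_self.trans h)) hq)
  set Ja := jop S F (4 * R) (en S B) with hJa
  have mJ : Measurable Ja := meas_jop S _ _ (meas_en S hBm)
  set δ := ⟪z, F.f⟫ - ⟪x, F.f⟫ with hδ
  have hδ1 : |δ| ≤ 3 * s := by
    rw [hδ, ← inner_sub_left]; exact (abs_inner_le F.hf).trans hd
  have hK : ∀ y, S.w y = 0 → 3 / 5 ≤ |S.u F y| → ∀ a, |a| ≤ 3 * s →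
      ∫⁻ τ in Icc 0 s, Ja (cz S F.swap y (τ + a)) ≤ jop S F.swap (4 * s) Ja y := fun y h1 h2 a ha => by
    rw [jop, indicator_of_mem (show y ∈ vv S F.swap from ⟨h1, show _ ≤ |S.u F y| by linarith⟩),
      show (vv S F.swap).indicator Ja = Ja from (indicator_indicator _ _ _).trans (by
        rw [show vv S F.swap = vv S F from rfl, inter_self]; rfl),
      ← lintegral_indicator measurableSet_Icc, ← lintegral_indicator measurableSet_Icc,
      ← lintegral_add_right_eq_self (fun τ => (Icc (-(4 * s)) (4 * s)).indicator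
        (fun τ => Ja (cz S F.swap y τ)) τ) a]
    refine lintegral_mono fun τ => indicator_apply_le' (fun hτ => ?_) fun _ => zero_le
    rw [indicator_of_mem (show τ + a ∈ Icc (-(4 * s)) (4 * s) from
      ⟨by linarith [hτ.1, (abs_le.1 ha).1], by linarith [hτ.2, (abs_le.1 ha).2]⟩)]
  have mc : ∀ y a, Measurable fun τ => Ja (cz S F.swap y (τ + a)) := fun y a =>
    mJ.comp ((cz_cont S F.swap).comp (f := fun τ => (y, τ + a)) (by fun_prop)).measurable
  obtain ⟨τ, hτ, h1⟩ := exists_le_setLAverage (μ := volume) (s := Icc 0 s) (by simpa) (by simp)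
    ((mc x δ).fun_add (mc z 0)).aemeasurable
  rw [setLAverage_eq, Real.volume_Icc, sub_zero, ENNReal.le_div_iff_mul_le (Or.inl (by simpa))
    (Or.inl ENNReal.ofReal_ne_top), lintegral_add_left (mc x δ)] at h1
  have h2 : ENNReal.ofReal R * (Ja (cz S F.swap x (τ + δ)) + Ja (cz S F.swap z (τ + 0)))
      ≤ ENNReal.ofReal (ω ^ 2 / 360000) := by
    have h3 := mul_le_mul_right (h1.trans (add_le_add (hK x hx ux δ hδ1)
      (hK z hz uz 0 (by simp; linarith)))) (ENNReal.ofReal (R / s))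
    rw [mul_comm _ (ENNReal.ofReal s), ← mul_assoc, ← ENNReal.ofReal_mul (by positivity),
      div_mul_cancel₀ _ hs.ne', mul_add (ENNReal.ofReal (R / s))] at h3
    exact h3.trans ((add_le_add le_add_self le_add_self).trans h)
  rw [add_zero, mul_add] at h2
  set x' := cz S F.swap x (τ + δ) with hx'
  set z' := cz S F.swap z τ with hz'
  have t1 : |τ + δ| ≤ 4 * s := abs_le.2
    ⟨by linarith [hτ.1, (abs_le.1 hδ1).1], by linarith [hτ.2, (abs_le.1 hδ1).2]⟩
  have t2 : |τ| ≤ s := abs_le.2 ⟨by linarith [hτ.1], hτ.2⟩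
  obtain ⟨x1, x2⟩ := gx (τ + δ) (abs_le.1 (by linarith))
  obtain ⟨z1, z2⟩ := gz τ (abs_le.1 (by linarith))
  have x3 : ‖x' - x‖ ≤ 12 * s := (cz_dist S _ _ _).trans (by linarith)
  have z3 : ‖z' - z‖ ≤ 3 * s := (cz_dist S _ _ _).trans (by linarith)
  have ab : ∀ p q, |S.u F q| - ‖gradient S.w p - gradient S.w q‖ ≤ |S.u F p| := fun p q => by
    linarith [u_sub S F p q, abs_sub_abs_le_abs_sub (S.u F q) (S.u F p),
      abs_sub_comm (S.u F q) (S.u F p)]
  have ax := go S F hBm (by positivity : 0 < 4 * R) hη (hball x' x3) x1 (by linarith [ab x' x])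
    (le_of_mul hR0 (le_self_add.trans h2) hq)
  have az := go S F hBm (by positivity : 0 < 4 * R) hη (hball z' (by
    linarith [norm_sub_le_norm_sub_add_norm_sub z' z x])) z1 (by linarith [ab z' z])
    (le_of_mul hR0 (le_add_self.trans h2) hq)
  set ε := ⟪z', F.e⟫ - ⟪x', F.e⟫ with hε
  have hε1 : |ε| ≤ 3 * s := by
    rw [hε, show ⟪z', F.e⟫ = ⟪z, F.e⟫ from S.cv_f F.swap _ _,
      show ⟪x', F.e⟫ = ⟪x, F.e⟫ from S.cv_f F.swap _ _, ← inner_sub_left]
    exact (abs_inner_le F.he).trans hd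
  have hf : ⟪z', F.f⟫ = ⟪x', F.f⟫ := by
    rw [show ⟪z', F.f⟫ = ⟪z, F.f⟫ + τ from S.cv_e F.swap _ _,
      show ⟪x', F.f⟫ = ⟪x, F.f⟫ + (τ + δ) from S.cv_e F.swap _ _, hδ]
    ring
  have sl : ∀ (y y' : E3) (σ : ℝ), S.w y = 0 → 3 / 5 ≤ |S.u F y| →
      ‖gradient S.w y' - gradient S.w y‖ ≤ ω / 100 → (S.w (cz S F y' σ) = 0 ∧
      ‖gradient S.w (cz S F y' σ) - gradient S.w y'‖ ≤ ω / 100) →
      |S.sl F (cz S F y' σ) - S.sl F y| ≤ 8 * (ω / 50) := fun y y' σ a b c d => by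
    have e : ‖gradient S.w (cz S F y' σ) - gradient S.w y‖ ≤ ω / 50 := by
      linarith [norm_sub_le_norm_sub_add_norm_sub (gradient S.w (cz S F y' σ)) (gradient S.w y')
        (gradient S.w y), d.2]
    exact sl_sub S F d.1 a (by linarith [ab (cz S F y' σ) y]) (by linarith) e
  obtain ⟨κ, hκ, hκ'⟩ : ∃ κ : ℝ, (κ = 1 ∨ κ = -1) ∧ ω / 2 ≤ κ * (S.sl F z - S.sl F x) := by
    rcases le_abs.1 hsl with h | h
    · exact ⟨1, Or.inl rfl, by linarith⟩
    · exact ⟨-1, Or.inr rfl, by linarith⟩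
  have gap : ∀ σ ∈ Icc (-R) R,
      9 / 50 * ω ≤ κ * (S.sl F (cz S F z' σ) - S.sl F (cz S F x' (ε + σ))) := fun σ hσ => by
    have a := abs_le.1 (sl z z' σ hz uz z2 (az σ ⟨by linarith [hσ.1], by linarith [hσ.2]⟩))
    have b := abs_le.1 (sl x x' (ε + σ) hx ux x2 (ax _
      ⟨by linarith [hσ.1, (abs_le.1 hε1).1], by linarith [hσ.2, (abs_le.1 hε1).2]⟩))
    rcases hκ with rfl | rfl <;> linarith [a.1, a.2, b.1, b.2]
  have ec : ∀ σ, cz S F x' (ε + σ) = S.cv F x' (⟪z', F.e⟫ + σ) := fun σ => by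
    rw [cz, hε]; congr 1; ring
  obtain ⟨σ, hσ, h0⟩ := exists_zero
    (d := fun σ => S.ht F z' (⟪z', F.e⟫ + σ) - S.ht F x' (⟪z', F.e⟫ + σ))
    (fun σ => ((S.ht_deriv F z' _).comp_const_add _ σ).sub ((S.ht_deriv F x' _).comp_const_add _ σ))
    hR0.le hκ (fun σ hσ => by have := gap σ hσ; rwa [ec] at this) (by
      rw [Dat.ht, Dat.ht, ← inner_sub_left, ← ec, ← cz, cz_zero, add_zero]
      refine (abs_inner_le F.hn).trans ?_
      have a := cz_dist S F x' ε
      linarith [norm_sub_le_norm_sub_add_norm_sub z' z (cz S F x' ε),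
        norm_sub_le_norm_sub_add_norm_sub z x (cz S F x' ε),
        norm_sub_le_norm_sub_add_norm_sub x x' (cz S F x' ε), norm_sub_rev x x',
        norm_sub_rev x' (cz S F x' ε)])
  have h3 := gap σ hσ
  rw [ec, cz, S.cv_eq F z', S.cv_eq F x', hf, sub_eq_zero.1 h0, sub_self, mul_zero] at h3
  linarith

lemma exists_net : ∃ T : Finset Frame, ∀ m : E3, ‖m‖ = 1 → ∃ F ∈ T, ‖m - F.n‖ < 1 / 10 := by
  classical
  obtain ⟨t, h1, h2⟩ := (isCompact_sphere (0 : E3) 1).elim_nhds_subcover (fun m => ball m (1 / 10))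
    fun m _ => ball_mem_nhds m (by norm_num)
  obtain ⟨F₀, -⟩ := exists_frame_n (n := EuclideanSpace.single 0 1) (by simp)
  have := Nonempty.intro F₀
  choose! f hf using fun m (hm : ‖m‖ = 1) => exists_frame_n hm
  refine ⟨t.image f, fun m hm => ?_⟩
  obtain ⟨a, ha, h⟩ := mem_iUnion₂.1 (h2 (show m ∈ sphere (0 : E3) 1 by simpa using hm))
  exact ⟨f a, Finset.mem_image_of_mem f ha, by
    rw [hf a (by simpa using h1 a ha)]; exact mem_ball_iff_norm.1 h⟩

lemma alg {u v a b a' b' ω : ℝ} (hu : 3 / 5 ≤ u) (hv : 3 / 5 ≤ v) (c1 : u ≤ 1) (c2 : v ≤ 1)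
    (pp : (a * u) ^ 2 + (b * u) ^ 2 + u ^ 2 = 1) (qq : (a' * v) ^ 2 + (b' * v) ^ 2 + v ^ 2 = 1)
    (hω : ω ^ 2 = 2 * (1 - (a * u * (a' * v) + b * u * (b' * v) + u * v))) :
    ω / 2 ≤ |a' - a| ∨ ω / 2 ≤ |b' - b| := by
  have huv : 0 < u * v := by positivity
  have e : ((a' - a) ^ 2 + (b' - b) ^ 2) * (u * v) ^ 2 = (u - v) ^ 2 + u * v * ω ^ 2 := by
    linear_combination v ^ 2 * pp + u ^ 2 * qq - u * v * hω
  have f : ω ^ 2 ≤ (a' - a) ^ 2 + (b' - b) ^ 2 := by
    refine le_of_mul_le_mul_right ?_ (pow_pos huv 2)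
    have : u * v ≤ 1 := by nlinarith
    nlinarith [sq_nonneg (u - v), mul_nonneg (mul_nonneg huv.le (sq_nonneg ω)) (sub_nonneg.2 this)]
  by_contra! h
  rw [← sq_abs (a' - _), ← sq_abs (b' - _)] at f
  nlinarith [abs_nonneg (a' - a), abs_nonneg (b' - b), h.1, h.2]

lemma exists_gap {T : Finset Frame} (hT : ∀ m : E3, ‖m‖ = 1 → ∃ F ∈ T, ‖m - F.n‖ < 1 / 10)
    {x z : E3} (hx : S.w x = 0) (hz : S.w z = 0) {ω : ℝ} (hω : ω ^ 2 = 2 * tilt S.w x z) :
    ∃ F ∈ T, 3 / 5 ≤ |S.u F x| ∧ 3 / 5 ≤ |S.u F z| ∧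
      (ω / 2 ≤ |S.sl F z - S.sl F x| ∨ ω / 2 ≤ |S.sl F.swap z - S.sl F.swap x|) := by
  set p := gradient S.w x
  obtain ⟨κ, hκ, hκ'⟩ : ∃ κ : ℝ, (κ = 1 ∨ κ = -1) ∧ ⟪p, κ • gradient S.w z⟫ = |⟪p, gradient S.w z⟫| := by
    rcases le_total 0 ⟪p, gradient S.w z⟫ with h | h
    · exact ⟨1, Or.inl rfl, by rw [one_smul, abs_of_nonneg h]⟩
    · exact ⟨-1, Or.inr rfl, by rw [neg_one_smul, inner_neg_right, abs_of_nonpos h]⟩
  set q := κ • gradient S.w z with hq'
  have hp : ‖p‖ = 1 := S.h1 x hx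
  have hq : ‖q‖ = 1 := by rw [hq', norm_smul, S.h1 z hz]; rcases hκ with rfl | rfl <;> simp
  have hpq : 0 ≤ ⟪p, q⟫ := hκ' ▸ abs_nonneg _
  have pp : ⟪p, p⟫ = 1 := by rw [real_inner_self_eq_norm_sq, hp]; norm_num
  have qq : ⟪q, q⟫ = 1 := by rw [real_inner_self_eq_norm_sq, hq]; norm_num
  have qp : ⟪q, p⟫ = ⟪p, q⟫ := real_inner_comm _ _
  have n1 : ‖p + q‖ ^ 2 = 2 + 2 * ⟪p, q⟫ := by rw [norm_add_sq_real, hp, hq]; ring
  have n3 : 7 / 5 ≤ ‖p + q‖ := by
    by_contra h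
    nlinarith [norm_nonneg (p + q)]
  have n5 : 0 < ‖p + q‖ := by linarith
  obtain ⟨F, hF, h⟩ := hT _ (norm_smul_inv_norm (𝕜 := ℝ) (norm_pos_iff.1 n5))
  have key : ∀ v : E3, ‖v‖ = 1 → ⟪v, p + q⟫ = 1 + ⟪p, q⟫ → 3 / 5 ≤ ⟪v, F.n⟫ := fun v hv e => by
    have a : 7 / 10 ≤ ⟪v, (‖p + q‖⁻¹ : ℝ) • (p + q)⟫ := by
      rw [real_inner_smul_right, e, le_inv_mul_iff₀ n5]; nlinarith
    have b := (le_abs_self _).trans (abs_real_inner_le_norm v ((‖p + q‖⁻¹ : ℝ) • (p + q) - F.n))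
    rw [inner_sub_right, hv] at b
    simp only [RCLike.ofReal_real_eq_id, id] at h
    linarith
  have pn := key p hp (by rw [inner_add_right, pp])
  have qn := key q hq (by rw [inner_add_right, qq, qp, add_comm])
  have uz : |S.u F z| = ⟪q, F.n⟫ := by
    rw [← abs_of_nonneg (show 0 ≤ ⟪q, F.n⟫ by linarith), hq', real_inner_smul_left, abs_mul]
    rcases hκ with rfl | rfl <;> simp [Dat.u]
  have ux : 3 / 5 ≤ |S.u F x| := pn.trans (le_abs_self _)
  refine ⟨F, hF, ux, uz ▸ qn, ?_⟩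
  have s1 : ∀ G : Frame, G.n = F.n → S.sl G x * ⟪p, F.n⟫ = -⟪p, G.e⟫ ∧
      S.sl G z * ⟪q, F.n⟫ = -⟪q, G.e⟫ := fun G hG => by
    have a := sl_eq S G hx (by rw [Dat.u, hG]; exact le_trans (by norm_num) ux)
    have b := sl_eq S G hz (by rw [Dat.u, hG]; exact le_trans (by linarith) uz.ge)
    rw [Dat.u, hG, Dat.a] at a b
    refine ⟨a, ?_⟩
    rw [hq', real_inner_smul_left, real_inner_smul_left]
    linear_combination κ * b
  obtain ⟨a1, a2⟩ := s1 F rfl
  obtain ⟨b1, b2⟩ := s1 F.swap rfl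
  rw [show F.swap.e = F.f from rfl] at b1 b2
  have c1 := (abs_le.1 (hp ▸ abs_inner_le (x := p) F.hn)).2
  have c2 := (abs_le.1 (hq ▸ abs_inner_le (x := q) F.hn)).2
  rw [P218WA.tilt, ← hκ'] at hω
  rw [F.inner_eq] at pp qq hω
  rw [show ⟪p, F.e⟫ = -(S.sl F x * ⟪p, F.n⟫) from (neg_eq_iff_eq_neg.1 a1.symm),
    show ⟪p, F.f⟫ = -(S.sl F.swap x * ⟪p, F.n⟫) from (neg_eq_iff_eq_neg.1 b1.symm)] at pp hω
  rw [show ⟪q, F.e⟫ = -(S.sl F z * ⟪q, F.n⟫) from (neg_eq_iff_eq_neg.1 a2.symm),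
    show ⟪q, F.f⟫ = -(S.sl F.swap z * ⟪q, F.n⟫) from (neg_eq_iff_eq_neg.1 b2.symm)] at qq hω
  exact alg pn qn c1 c2 (by linarith) (by linarith) (by linarith)

/-- the static estimate for the tilt -/
theorem tilt_le {c : ℝ} (hc : 0 < c) : ∃ C : ℝ, 1 ≤ C ∧ ∀ W, P218UA.IsSurf W →
    ∀ (p : E3) (ρ s R : ℝ), 0 < s → 0 < R → R ≤ ρ → ∃ g : E3 → ℝ≥0∞, ∫⁻ x, g x ∂(P218UA.ar W)
        ≤ ENNReal.ofReal (C * R ^ 2) * ∫⁻ x in ball p (25 * ρ), ENNReal.ofReal (hessSq W x)
          ∂(P218UA.ar W) ∧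
      ∀ x ∈ ball p ρ, ∀ z, Hit W (gradient W) c (3 * s) z x →
        ENNReal.ofReal (tilt W x z - C * (s / R) ^ 2) ≤ g x := by
  obtain ⟨T, hT⟩ := exists_net
  set κ := 72 * (1 + 2 / c) ^ 2 with hκ
  set N : ℝ := 180000 * (T.card * 544) with hN
  have hκ0 : 0 ≤ κ := by positivity
  have hN0 : 0 ≤ N := by positivity
  refine ⟨11250 + (N + 2 * (κ * N + κ * 9)), by nlinarith, fun W hW p ρ s R hs hR hρ => ?_⟩
  have t1 : ∀ x z, tilt W x z ≤ 1 := fun x z => sub_le_self _ (abs_nonneg _)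
  rcases lt_or_ge R s with hsR | hsR
  · refine ⟨0, by simp, fun x _ z _ => (ENNReal.ofReal_of_nonpos ?_).le⟩
    have : 1 ≤ (s / R) ^ 2 := one_le_pow₀ ((one_le_div hR).2 hsR.le)
    nlinarith [t1 x z, mul_nonneg hκ0 hN0]
  have h2 : ContDiff ℝ 2 W := hW.smooth.of_le (by norm_cast)
  have h1 : ∀ x, W x = 0 → ‖gradient W x‖ = 1 := fun x hx => (hW.eik x hx).self_of_nhds
  let S : Dat := ⟨W, gradient W, h2, h1, contDiff_grad h2,
    fun x _ => ⟨1, zero_le_one, le_rfl, (one_smul _ _).symm⟩⟩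
  set B := ball p (25 * ρ)
  set Ψ : E3 → ℝ≥0∞ := fun y => 180000 * ∑ F ∈ T, (ph S F s R B y + ph S F.swap s R B y) with hΨ
  have mB : MeasurableSet B := measurableSet_ball
  have mΨ : Measurable Ψ := (Finset.measurable_fun_sum _ fun F _ =>
    (meas_ph S F s R mB).add (meas_ph S F.swap s R mB)).const_mul _
  set E := ∫⁻ x in B, ENNReal.ofReal (hessSq W x) ∂(P218UA.ar W) with hE
  have iΨ : ∫⁻ y, Ψ y ∂(P218UA.ar W) ≤ ENNReal.ofReal (N * R ^ 2) * E := by
    rw [lintegral_const_mul' _ _ (by norm_num), lintegral_finsetSum _ fun F _ =>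
      (meas_ph S F s R mB).fun_add (meas_ph S F.swap s R mB)]
    refine (mul_le_mul_right (Finset.sum_le_card_nsmul T _ (2 * (ENNReal.ofReal (272 * R ^ 2) * E))
      fun F _ => ?_) _).trans_eq ?_
    · rw [lintegral_add_left (meas_ph S F s R mB), two_mul, hE, ← lintegral_indicator mB]
      exact add_le_add (int_ph S F hs hR mB) (int_ph S F.swap hs hR mB)
    · rw [nsmul_eq_mul, ← mul_assoc, ← mul_assoc, ← mul_assoc, hN,
        show 180000 * (T.card * 544) * R ^ 2 = 180000 * T.card * 2 * (272 * R ^ 2) by ring,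
        ENNReal.ofReal_mul (by positivity), ENNReal.ofReal_mul (by positivity),
        ENNReal.ofReal_mul (by positivity)]
      simp
  have mg : Measurable (B.indicator fun z => min 1 (Ψ z)) := (measurable_const.min mΨ).indicator mB
  refine ⟨fun x => Ψ x + ⨆ z, ⨆ _ : Hit W (gradient W) c (3 * s) z x,
    B.indicator (fun z => min 1 (Ψ z)) z, ?_, fun x hx z hz => ?_⟩
  · rw [lintegral_add_left mΨ]
    have h3 := push (c := c) (S := 3 * s) hW (contDiff_grad h2) (fun z hz => (h1 z hz).le) hc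
      (by positivity) mg fun z => indicator_le' (fun z _ => min_le_left _ _) (fun _ _ => zero_le) z
    have h4 : ∫⁻ z, B.indicator (fun z => min 1 (Ψ z)) z * ENNReal.ofReal
        (κ * (1 + (3 * s) ^ 2 * ‖fderiv ℝ (gradient W) z‖ ^ 2)) ∂(P218UA.ar W)
        ≤ ENNReal.ofReal κ * (ENNReal.ofReal (N * R ^ 2) * E) + ENNReal.ofReal (κ * 9 * R ^ 2) * E := by
      refine le_trans ?_ (add_le_add_left (mul_le_mul_right iΨ _) _)
      rw [hE, ← lintegral_indicator mB, ← lintegral_const_mul' _ _ ENNReal.ofReal_ne_top,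
        ← lintegral_const_mul' _ _ ENNReal.ofReal_ne_top, ← lintegral_add_left (mΨ.const_mul _)]
      refine lintegral_mono fun z => ?_
      by_cases hz : z ∈ B
      · rw [indicator_of_mem hz, indicator_of_mem hz, mul_add, mul_one,
          ENNReal.ofReal_add hκ0 (by positivity), mul_add, mul_comm,
          ← ENNReal.ofReal_mul (by positivity)]
        refine add_le_add (mul_le_mul_right (min_le_right _ _) _)
          ((mul_le_mul_left (min_le_left _ _) _).trans ?_)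
        rw [one_mul]
        refine ENNReal.ofReal_le_ofReal ?_
        have a : ‖fderiv ℝ (gradient W) z‖ ^ 2 ≤ hessSq W z := norm_hs_sq_le h2 z
        have b := mul_le_mul (pow_le_pow_left₀ hs.le hsR 2) a (sq_nonneg _) (sq_nonneg _)
        nlinarith [mul_le_mul_of_nonneg_left b hκ0]
      · simp [indicator_of_notMem hz]
    refine (add_le_add iΨ (h3.trans (mul_le_mul_right h4 _))).trans ?_
    rw [← mul_assoc, ← add_mul, ← mul_assoc, ← add_mul, ← ENNReal.ofReal_mul hκ0,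
      ← ENNReal.ofReal_add (by positivity) (by positivity), ← ENNReal.ofReal_ofNat 2,
      ← ENNReal.ofReal_mul two_pos.le, ← ENNReal.ofReal_add (by positivity) (by positivity)]
    exact mul_le_mul_left (ENNReal.ofReal_le_ofReal (by nlinarith [sq_nonneg R])) _
  · have hd : ‖z - x‖ ≤ 3 * s := by
      obtain ⟨a, -, -, σ, -, b, rfl, -⟩ := hz
      rwa [sub_add_cancel_left, norm_neg, norm_smul, h1 z a, mul_one]
    have hx' := mem_ball_iff_norm.1 hx
    rcases le_or_gt (tilt W x z) (11250 * (s / R) ^ 2) with h | h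
    · refine (ENNReal.ofReal_of_nonpos ?_).le.trans zero_le
      nlinarith [mul_nonneg (show 0 ≤ N + 2 * (κ * N + κ * 9) by positivity) (sq_nonneg (s / R))]
    have h0 : 0 < tilt W x z := lt_of_le_of_lt (by positivity) h
    have hω := Real.sq_sqrt (show 0 ≤ 2 * tilt W x z by positivity)
    have hω0 : 0 < √(2 * tilt W x z) := Real.sqrt_pos.2 (by positivity)
    have hω2 : √(2 * tilt W x z) ≤ 2 := Real.sqrt_le_iff.2 ⟨two_pos.le, by linarith [t1 x z]⟩
    have hωR : 150 * s ≤ √(2 * tilt W x z) * R := by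
      rw [← div_le_iff₀ hR]
      refine Real.le_sqrt_of_sq_le ?_
      rw [mul_div_assoc, mul_pow]
      linarith
    have hB : closedBall x (24 * R) ⊆ B := closedBall_subset_ball' (by rw [dist_eq_norm]; linarith)
    obtain ⟨F, hF, a, b, e⟩ := exists_gap S hT hz.2.1 hz.1 hω
    have h5 : ENNReal.ofReal (√(2 * tilt W x z) ^ 2 / 360000) ≤ (ph S F s R B x + ph S F.swap s R B x)
        + (ph S F s R B z + ph S F.swap s R B z) := by
      rcases e with e | e
      · exact (geo S F mB hs hsR hB hz.2.1 hz.1 hd a b hω0 hω2 e hωR).le.trans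
          (add_le_add le_self_add le_self_add)
      · exact (geo S F.swap mB hs hsR hB hz.2.1 hz.1 hd a b hω0 hω2 e hωR).le.trans
          (add_le_add le_add_self le_add_self)
    have h6 : ENNReal.ofReal (tilt W x z) ≤ Ψ x + Ψ z := by
      rw [show tilt W x z = 180000 * (√(2 * tilt W x z) ^ 2 / 360000) by rw [hω]; ring,
        ENNReal.ofReal_mul (by norm_num), ENNReal.ofReal_ofNat, hΨ]
      simp only
      rw [← mul_add]
      exact mul_le_mul_right (h5.trans (add_le_add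
        (Finset.single_le_sum (f := fun F => ph S F s R B x + ph S F.swap s R B x)
          (fun _ _ => zero_le) hF)
        (Finset.single_le_sum (f := fun F => ph S F s R B z + ph S F.swap s R B z)
          (fun _ _ => zero_le) hF))) _
    have hzB : z ∈ B := hB (mem_closedBall_iff_norm.2 (by linarith))
    refine le_trans ?_ (add_le_add_right (le_iSup₂_of_le z hz (indicator_of_mem hzB _).ge) _)
    refine (ENNReal.ofReal_le_ofReal (sub_le_self _ (by positivity))).trans ?_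
    rcases le_total 1 (Ψ z) with h7 | h7
    · rw [min_eq_left h7]
      exact (ENNReal.ofReal_le_one.2 (t1 x z)).trans le_add_self
    · rwa [min_eq_right h7]

end Vale.Agent.P218WT
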